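import Vale.Agent.P297Z.Gd.Chern
import Vale.Agent.P297Z.Top.Ev

/-!
# P297: evaluation of the loci with at most one point, definitions
-/

set_option linter.all false

noncomputable section

namespace Vale.Agent.P297Z.Ev

open PowerSeries Gd

/-! ### series -/

section ser

variable {A : Type*} [CommRing A] [Algebra ℂ A]

/-- the integrand without points -/
def core0 (h₁ h₂ : A) (o₁ o₂ : ℕ) (A₁ A₂ e : ℤ) : A⟦X⟧ :=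
  C (h₁ ^ o₁ * h₂ ^ o₂) * X ^ (o₁ + o₂) * (bin h₂ (-A₂) * bin (-h₁) (-A₁) * bin (h₂ - h₁) e)

/-- the factor of a point -/
def ext4 (a b c d : A) : A⟦X⟧ := C a * X * (1 + C b * X) * bin c (-1) * bin d (-1)

/-- the average over a slot -/
def zz (t : ℂ) (d n : A) : A⟦X⟧ := C (algebraMap ℂ A t) * X * (1 + C d * X) + C n * X ^ 2

end ser

/-- integration along `P ^ v₁ × S × P ^ v₂ → S` -/
structure Alg (A R V : Type*) [CommRing A] [Algebra ℂ A] [CommRing R] [Algebra ℂ R]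
    [AddCommGroup V] [Module ℂ V] [Module R V] where
  σ : R →ₐ[ℂ] A
  J : A →ₗ[ℂ] V
  f : V
  h₁ : A
  h₂ : A
  v₁ : ℕ
  v₂ : ℕ
  proj : ∀ c x, J (σ c * x) = c • J x
  nil₁ : h₁ ^ (v₁ + 1) = 0
  nil₂ : h₂ ^ (v₂ + 1) = 0
  top : ∀ i j, J (h₁ ^ i * h₂ ^ j) = if i = v₁ ∧ j = v₂ then f else 0

/-- **D0**: no point -/
def D0 : Prop := ∀ (A R V : Type 1) [CommRing A] [Algebra ℂ A] [CommRing R] [Algebra ℂ R]
  [AddCommGroup V] [Module ℂ V] [Module R V] [IsScalarTower ℂ R V] (a : Alg A R V)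
  (o₁ o₂ a₁ a₂ : ℕ) (A₁ A₂ e p u v q : ℤ) (t t' : ℂ), a.v₁ = o₁ + a₁ → a.v₂ = o₂ + a₂ →
  a₁ + a₂ ≤ 1 →
  a.J (coeff (a.v₁ + a.v₂ + 2 * 12 + 2) (core0 a.h₁ a.h₂ o₁ o₂ A₁ A₂ e *
    (zz t (a.h₂ - a.h₁) 0 * X) ^ 12 * zz t' (a.h₂ - a.h₁) 0 ^ 2)) =
  ((-1) ^ (a₁ + a₂) * t ^ 12 * ((Eval.Mi 0 0 a₁ a₂ e A₁ A₂ p u v q : ℤ) * t' ^ 2)) • a.f

/-- **D1**: one point, on the first (`b = true`) or on the second factor -/
def D1 : Prop := ∀ (A R V : Type 1) [CommRing A] [Algebra ℂ A] [CommRing R] [Algebra ℂ R]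
  [AddCommGroup V] [Module ℂ V] [Module R V] [IsScalarTower ℂ R V] (a : Alg A R V)
  (o₁ o₂ a₁ a₂ : ℕ) (A₁ A₂ e p u v q : ℤ) (b : Bool) (x : Fin 4 → R) (dg : V →ₗ[ℂ] ℂ),
  a.v₁ = o₁ + a₁ → a.v₂ = o₂ + a₂ → a₁ + a₂ ≤ 1 →
  dg ((x 0 * x 1) • a.f) = p → dg ((x 0 * (x 2 - x 3)) • a.f) = u →
  dg ((x 1 * (x 2 - x 3)) • a.f) = v →
  dg ((-(x 2 * x 2) + x 2 * x 3 - x 3 * x 3) • a.f) = q →
  ∃ N : ℂ, ∀ (al : R) (t : ℂ),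
    let g := cond b a.h₁ a.h₂
    let sg : ℂ := cond b (-1) 1
    let d := a.h₂ - a.h₁
    let c := core0 a.h₁ a.h₂ o₁ o₂ A₁ A₂ e *
      ext4 (g + a.σ (x 0)) (sg • (g + a.σ (x 1))) (d - a.σ (x 2)) (d + a.σ (x 3)) *
      (zz t d (a.σ al) * X) ^ 12
    let ok := fun (w : R) (t : ℂ) => dg ((w * x 0) • a.f) = -sg * t ∧
      dg ((w * x 1) • a.f) = -sg * t ∧ dg ((w * x 2) • a.f) = 2 * t ∧
      dg ((w * x 3) • a.f) = -2 * t ∧ dg ((w * al) • a.f) = 0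
    a.J (coeff (a.v₁ + a.v₂ + 2 + 2 * 12 + 2) (c * X ^ 4)) = (t ^ 12 * N) • a.f ∧
    (ok al t → ∀ (w : R) (t' : ℂ), ok w t' →
      dg (a.J (coeff (a.v₁ + a.v₂ + 2 + 2 * 12 + 2) (c * zz t' d (a.σ w) ^ 2))) =
        t ^ 12 * (N * dg ((w * w) • a.f) + -sg * (-1) ^ (a₁ + a₂) *
          (Eval.Mi (cond b 1 0) (cond b 0 1) a₁ a₂ e A₁ A₂ p u v q : ℤ) * t' ^ 2))

/-! ### the diagonal -/

variable {W S B : Spc}

/-- the graph map -/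
def gr (s : Mor W S) : Mor W (W.prod S) := Mor.lift (Mor.id W) s

/-- the class of the graph -/
def ds (s : Mor W S) : K0 (W.prod S) := pullK (s.map (Mor.id S)) (delta S)

/-- what is used about the diagonal -/
structure Dia (S : Spc) (om : K0 S) : Prop where
  d1 : ∀ (W : Spc) (e : ℕ), W.IsVar e → ∀ (s : Mor W S) (x : K0 (W.prod S)),
    pK W S (ds s * x) = pullK (gr s) x
  d2 : ∀ (W : Spc) (e : ℕ), W.IsVar e → ∀ (s : Mor W S) (x : K0 (W.prod S)),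
    pK W S (dualK _ (ds s) * x) = pullK s om * pullK (gr s) x
  rk0 : rk _ (delta S) = 0
  c1 : gc ℂ 1 (delta S) = 0
  c2 : ∀ (W : Spc) (e : ℕ), W.IsVar e → ∀ s : Mor W S,
    (-gc ℂ 2 (ds s)) • fund ℂ (W.prod S) (e + 2) = GH.push (gr s) (fund ℂ W e)

/-- the diagonal of the surface -/
def DIA : Prop := Sf.ForAll fun S => ∀ h : S.All, Dia (S.spc h) (S.lK h (-S.kap)) ∧
  ∀ p z, S.Over h z p → kact _ (dK _ z) (oG _) = S.ptG h p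

/-! ### averages -/

/-- `z` is the integral of `y` over `S`, after every base change -/
def Avg (y : GA ℂ (B.prod S)) (z : GA ℂ B) : Prop :=
  ∀ (W : Spc) (n : ℕ), W.IsVar n → ∀ b : Mor W B,
    GH.push (Mor.fst W S) (GA.pull (b.map (Mor.id S)) y • fund ℂ (W.prod S) (n + 2)) =
      GA.pull b z • fund ℂ W n

/-- **A**: the average of the class of a graph -/
def AvgGr : Prop := ∀ (S : Spc) (om : K0 S), S.IsVar 2 → Dia S om → ∀ (B : Spc) (s : Mor B S)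
  (y : GA ℂ (B.prod S)), Avg (-gc ℂ 2 (ds s) * y) (GA.pull (gr s) y)

section base

variable {L₁ M₁ L₂ M₂ : K0 S} {v₁ v₂ n₁ n₂ o₁ o₂ : ℕ}
  (T₁ : Tower S L₁ M₁ v₁ n₁ o₁) (T₂ : Tower S L₂ M₂ v₂ n₂ o₂)

/-- a model of the fixed locus on which the universal classes are explicit -/
structure Base where
  B : Spc
  var : B.IsVar (v₁ + 2 * n₁ + (v₂ + 2 * n₂))
  r : Mor B (Fx T₁ T₂)
  rf : GH.push r (fund ℂ B (v₁ + 2 * n₁ + (v₂ + 2 * n₂))) =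
    fund ℂ _ (v₁ + 2 * n₁ + (v₂ + 2 * n₂))
  h₁ : GA ℂ B
  h₂ : GA ℂ B
  Del : GA ℂ (B.prod S)
  nu : GA ℂ S →ₗ[ℂ] GA ℂ B
  mu : GA ℂ B →ₗ[ℂ] GH ℂ S
  kap : map (GA.pullR ℂ (r.map (Mor.id S))) (ld ℂ (kappa (E1 T₁ T₂) (E2 T₁ T₂))) =
    C (GA.pull (Mor.fst B S) h₁ + GA.pull (Mor.snd B S) (gc ℂ 1 M₁)) * X *
      (1 + C (GA.pull (Mor.fst B S) h₂ + GA.pull (Mor.snd B S) (gc ℂ 1 M₂)) * X) + C Del * X ^ 2
  avg : ∀ c, Avg (Del * GA.pull (Mor.snd B S) c) (nu c)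
  psh : ∀ y, GH.push (Mor.snd B S) ((GA.pull (Mor.fst B S) y * Del) •
    fund ℂ (B.prod S) (v₁ + 2 * n₁ + (v₂ + 2 * n₂) + 2)) = mu y

variable {T₁ T₂}

/-- the integrand after the integration over `k` slots -/
def Base.cz (b : Base T₁ T₂) (k : ℕ) (t : ℂ) (al : GA ℂ S) : (GA ℂ b.B)⟦X⟧ :=
  map (GA.pullR ℂ b.r) (ld ℂ (core T₁ T₂)) * (zz t (b.h₂ - b.h₁) (b.nu al) * X) ^ k

end base

/-- the pairing on the surface -/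
def pr (x y : GA ℂ S) : ℂ := GH.deg ((x * y) • fund ℂ S 2)

/-- **B**: the values of the functionals on the contribution -/
def Gen : Prop := ∀ (S : Spc), S.IsVar 2 → ∀ {L₁ M₁ L₂ M₂ : K0 S} {v₁ v₂ n₁ n₂ o₁ o₂ : ℕ}
  (T₁ : Tower S L₁ M₁ v₁ n₁ o₁) (T₂ : Tower S L₂ M₂ v₂ n₂ o₂) (b : Base T₁ T₂) (k : ℕ)
  (ι : Type) [Fintype ι] (a : ι → ℂ) (w : ι → K0 S) (t : ℂ), (∀ i, rk S (w i) = 0) →
  let al := ∑ i, a i • amk ℂ 1 (w i)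
  let n := v₁ + 2 * n₁ + (v₂ + 2 * n₂)
  let sg : ℂ := (-1) ^ (rk _ (bM T₁ T₂)).natAbs
  pr al (gc ℂ 1 M₁) = t → pr al (gc ℂ 1 M₂) = -t →
  (∀ (w' : K0 S) (t' : ℂ), rk S w' = 0 → pr (amk ℂ 1 w') (gc ℂ 1 M₁) = t' →
    pr (amk ℂ 1 w') (gc ℂ 1 M₂) = -t' →
    GamF T₁ T₂ k a w (Psi S w') = sg * GH.deg (coeff (n + 2 * k + 2)
      (b.cz k t al * zz t' (b.h₂ - b.h₁) (b.nu (amk ℂ 1 w')) ^ 2) • fund ℂ b.B n)) ∧
  ∀ (τ : G S →+ ℂ) (z z' : S.Pt),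
    let ξ := amk ℂ 2 (dK S z - dK S z')
    let y := coeff (n + 2 * k + 2) (b.cz k t al * X ^ 4) * b.nu ξ
    GH.deg (ξ • fund ℂ S 2) = 0 →
    GamF T₁ T₂ k a w (Phi S τ z z') = sg * (GH.fn0 τ (b.mu y) +
      GH.fn0 τ ((gc ℂ 1 M₁ * gc ℂ 1 M₂) • fund ℂ S 2) * GH.deg (y • fund ℂ b.B n))

end Vale.Agent.P297Z.Ev
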