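import Vale.Agent.P297Z.Ev.Defs

/-!
# P297: the two algebraic evaluations
-/

set_option linter.all false

noncomputable section

namespace Vale.Agent.P297Z.Ev

open PowerSeries Gd

section rep

variable {A R : Type*} [CommRing A] [Algebra ℂ A] [CommRing R] [Algebra ℂ R]
  {σ : R →ₐ[ℂ] A} {H h : A}

variable (σ H h) in
/-- `y = c + d h` after multiplication by `H` -/
def Rep (y : A) (c d : R) : Prop := H * h * h = 0 → H * y = H * (σ c + σ d * h)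

namespace Rep

variable {y y' : A} {c d c' d' : R}

theorem cg (p : Rep σ H h y c d) (e : c = c') (e' : d = d') : Rep σ H h y c' d' := e ▸ e' ▸ p

theorem add (p : Rep σ H h y c d) (q : Rep σ H h y' c' d') :
    Rep σ H h (y + y') (c + c') (d + d') := fun hh => by
  rw [map_add, map_add]; linear_combination p hh + q hh

theorem sub (p : Rep σ H h y c d) (q : Rep σ H h y' c' d') :
    Rep σ H h (y - y') (c - c') (d - d') := fun hh => by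
  rw [map_sub, map_sub]; linear_combination p hh - q hh

theorem neg (p : Rep σ H h y c d) : Rep σ H h (-y) (-c) (-d) := fun hh => by
  rw [map_neg, map_neg]; linear_combination -p hh

theorem mul (p : Rep σ H h y c d) (q : Rep σ H h y' c' d') :
    Rep σ H h (y * y') (c * c') (c * d' + d * c') := fun hh => by
  rw [map_add, map_mul, map_mul, map_mul]
  linear_combination y' * p hh + (σ c + σ d * h) * q hh + σ d * σ d' * hh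

theorem sig (c : R) : Rep σ H h (σ c) c 0 := fun _ => by rw [map_zero, zero_mul, add_zero]

theorem zero : Rep σ H h 0 0 0 := map_zero σ ▸ sig 0

theorem one : Rep σ H h 1 1 0 := map_one σ ▸ sig 1

theorem alg (z : ℂ) : Rep σ H h (algebraMap ℂ A z) (algebraMap ℂ R z) 0 :=
  σ.commutes z ▸ sig _

theorem int (z : ℤ) : Rep σ H h (z : A) (z : R) 0 := map_intCast σ z ▸ sig _

end Rep

variable (σ H h) in
/-- the first three coefficients -/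
def T3 (f : A⟦X⟧) (a₀ b₀ a₁ b₁ a₂ b₂ : R) : Prop :=
  Rep σ H h (coeff 0 f) a₀ b₀ ∧ Rep σ H h (coeff 1 f) a₁ b₁ ∧ Rep σ H h (coeff 2 f) a₂ b₂

namespace T3

variable {f g : A⟦X⟧} {u v : A} {a₀ b₀ a₁ b₁ a₂ b₂ c₀ d₀ c₁ d₁ c₂ d₂ : R}

theorem mul (p : T3 σ H h f a₀ b₀ a₁ b₁ a₂ b₂) (q : T3 σ H h g c₀ d₀ c₁ d₁ c₂ d₂) :
    T3 σ H h (f * g) (a₀ * c₀) (a₀ * d₀ + b₀ * c₀) (a₀ * c₁ + a₁ * c₀)
      (a₀ * d₁ + b₀ * c₁ + (a₁ * d₀ + b₁ * c₀)) (a₀ * c₂ + a₁ * c₁ + a₂ * c₀)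
      (a₀ * d₂ + b₀ * c₂ + (a₁ * d₁ + b₁ * c₁) + (a₂ * d₀ + b₂ * c₀)) := by
  have e0 : coeff 0 (f * g) = coeff 0 f * coeff 0 g := by simp [coeff_mul]
  have e1 : coeff 1 (f * g) = coeff 0 f * coeff 1 g + coeff 1 f * coeff 0 g := by
    simp [coeff_mul, Finset.Nat.antidiagonal_succ]
  have e2 : coeff 2 (f * g) =
      coeff 0 f * coeff 2 g + coeff 1 f * coeff 1 g + coeff 2 f * coeff 0 g := by
    simp [coeff_mul, Finset.Nat.antidiagonal_succ, add_assoc]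
  rw [T3, e0, e1, e2]
  exact ⟨p.1.mul q.1, (p.1.mul q.2.1).add (p.2.1.mul q.1),
    ((p.1.mul q.2.2).add (p.2.1.mul q.2.1)).add (p.2.2.mul q.1)⟩

theorem cg (p : T3 σ H h f a₀ b₀ a₁ b₁ a₂ b₂) (e₀ : a₀ = c₀) (e₀' : b₀ = d₀) (e₁ : a₁ = c₁)
    (e₁' : b₁ = d₁) (e₂ : a₂ = c₂) (e₂' : b₂ = d₂) : T3 σ H h f c₀ d₀ c₁ d₁ c₂ d₂ :=
  ⟨p.1.cg e₀ e₀', p.2.1.cg e₁ e₁', p.2.2.cg e₂ e₂'⟩

theorem lin (p : Rep σ H h u a₀ b₀) (q : Rep σ H h v a₁ b₁) :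
    T3 σ H h (C u + C v * X) a₀ b₀ a₁ b₁ 0 0 := by
  refine ⟨?_, ?_, ?_⟩
  · simpa using p
  · simpa [coeff_C] using q
  · simpa [coeff_C, coeff_X] using (Rep.zero : Rep σ H h 0 0 0)

theorem bn (p : Rep σ H h u a₀ b₀) (r : ℤ) : T3 σ H h (bin u r) 1 0 (r * a₀) (r * b₀)
    ((Ring.choose r 2 : ℤ) * (a₀ * a₀)) ((Ring.choose r 2 : ℤ) * (2 * a₀ * b₀)) := by
  refine ⟨?_, ?_, ?_⟩ <;> rw [coeff_bin, zsmul_eq_mul]
  · simpa using (Rep.one : Rep σ H h 1 1 0)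
  · rw [Ring.choose_one_right, pow_one]
    exact ((Rep.int r).mul p).cg rfl (by ring)
  · rw [pow_two]
    exact ((Rep.int _).mul (p.mul p)).cg rfl (by ring)

theorem inv (p : Rep σ H h u a₀ b₀) :
    T3 σ H h (bin u (-1)) 1 0 (-a₀) (-b₀) (a₀ * a₀) (2 * a₀ * b₀) := by
  have e : Ring.choose (-1 : ℤ) 2 = 1 := by
    rw [Ring.choose_neg]; simp [Ring.choose_zero_ite]; decide
  refine (bn p (-1)).cg rfl rfl ?_ ?_ ?_ ?_ <;> simp [e]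

theorem sq (p : T3 σ H h f a₀ 0 a₁ b₁ 0 0) :
    T3 σ H h (f ^ 2) (a₀ ^ 2) 0 (2 * a₀ * a₁) (2 * a₀ * b₁) (a₁ ^ 2) (2 * a₁ * b₁) := by
  rw [pow_two]
  refine (p.mul p).cg ?_ ?_ ?_ ?_ ?_ ?_ <;> ring

theorem p12 (p : T3 σ H h f a₀ 0 a₁ b₁ 0 0) :
    T3 σ H h (f ^ 12) (a₀ ^ 12) 0 (12 * a₀ ^ 11 * a₁) (12 * a₀ ^ 11 * b₁) (66 * a₀ ^ 10 * a₁ ^ 2)
      (132 * a₀ ^ 10 * a₁ * b₁) := by
  have p4 := p.sq.mul p.sq
  rw [show f ^ 12 = f ^ 2 * f ^ 2 * (f ^ 2 * f ^ 2) * (f ^ 2 * f ^ 2) by ring]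
  refine ((p4.mul p4).mul p4).cg ?_ ?_ ?_ ?_ ?_ ?_ <;> ring

end T3

theorem zz_eq' (t : ℂ) (d n : A) :
    zz t d n = X * (C (algebraMap ℂ A t) + C (algebraMap ℂ A t * d + n) * X) := by
  simp only [zz, map_add, map_mul]; ring

/-- the series without the monomial -/
def G0 (h₁ h₂ : A) (A₁ A₂ e : ℤ) : A⟦X⟧ := bin h₂ (-A₂) * bin (-h₁) (-A₁) * bin (h₂ - h₁) e

variable {h₁ h₂ g : A} {α₁ α₂ γ : R}

theorem t_G0 (p₁ : Rep σ H h h₁ 0 α₁) (p₂ : Rep σ H h h₂ 0 α₂) (A₁ A₂ e : ℤ) :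
    T3 σ H h (G0 h₁ h₂ A₁ A₂ e) 1 0 0 (A₁ * α₁ - A₂ * α₂ + e * (α₂ - α₁)) 0 0 := by
  refine (((T3.bn p₂ (-A₂)).mul (T3.bn p₁.neg (-A₁))).mul (T3.bn (p₂.sub p₁) e)).cg
    ?_ ?_ ?_ ?_ ?_ ?_ <;> push_cast <;> ring

theorem t_slot {d : A} {δ : R} (p : Rep σ H h d 0 δ) (t : ℂ) (n : R) :
    T3 σ H h (C (algebraMap ℂ A t) + C (algebraMap ℂ A t * d + σ n) * X) (algebraMap ℂ R t) 0 n
      (algebraMap ℂ R t * δ) 0 0 :=
  T3.lin (Rep.alg t) ((((Rep.alg t).mul p).add (Rep.sig n)).cg (by ring) (by ring))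

/-- the series of the point -/
def G1 (a b c d : A) : A⟦X⟧ := (C a + C 0 * X) * (C 1 + C b * X) * bin c (-1) * bin d (-1)

theorem ext4_eq (a b c d : A) : ext4 a b c d = X * G1 a b c d := by
  simp only [ext4, G1, map_zero, map_one]; ring

theorem Rep.smul {y : A} {c d : R} (p : Rep σ H h y c d) (s : ℂ) :
    Rep σ H h (s • y) (algebraMap ℂ R s * c) (algebraMap ℂ R s * d) := by
  rw [Algebra.smul_def]
  exact ((Rep.alg s).mul p).cg rfl (by ring)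

theorem t_G1 {d : A} {δ : R} (pd : Rep σ H h d 0 δ) (pg : Rep σ H h g 0 γ) (s : ℂ)
    (x : Fin 4 → R) :
    T3 σ H h (G1 (g + σ (x 0)) (s • (g + σ (x 1))) (d - σ (x 2)) (d + σ (x 3))) (x 0) γ
      (x 0 * (algebraMap ℂ R s * x 1 + x 2 - x 3))
      (γ * (algebraMap ℂ R s * x 1 + x 2 - x 3) + x 0 * (algebraMap ℂ R s * γ - 2 * δ))
      (x 0 * (algebraMap ℂ R s * (x 1 * (x 2 - x 3)) + (x 2 * x 2 - x 2 * x 3 + x 3 * x 3)))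
      (γ * (algebraMap ℂ R s * (x 1 * (x 2 - x 3)) + (x 2 * x 2 - x 2 * x 3 + x 3 * x 3)) +
        x 0 * ((algebraMap ℂ R s * γ - 3 * δ) * (x 2 - x 3) - 2 * δ * algebraMap ℂ R s * x 1)) := by
  refine ((((T3.lin (pg.add (Rep.sig (x 0))) Rep.zero).mul (T3.lin Rep.one
    ((pg.add (Rep.sig (x 1))).smul s))).mul (T3.inv (pd.sub (Rep.sig (x 2))))).mul
    (T3.inv (pd.add (Rep.sig (x 3))))).cg ?_ ?_ ?_ ?_ ?_ ?_ <;> ring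

end rep

section alg

variable {A R V : Type*} [CommRing A] [Algebra ℂ A] [CommRing R] [Algebra ℂ R]
  [AddCommGroup V] [Module ℂ V] [Module R V] (a : Alg A R V) {o₁ o₂ a₁ a₂ : ℕ}

/-- the data of the three cases -/
theorem Alg.cases (e₁ : a.v₁ = o₁ + a₁) (e₂ : a.v₂ = o₂ + a₂) (hl : a₁ + a₂ ≤ 1) :
    ∃ h : A, Rep a.σ (a.h₁ ^ o₁ * a.h₂ ^ o₂) h a.h₁ 0 a₁ ∧
      Rep a.σ (a.h₁ ^ o₁ * a.h₂ ^ o₂) h a.h₂ 0 a₂ ∧ ∀ y c d,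
      Rep a.σ (a.h₁ ^ o₁ * a.h₂ ^ o₂) h y c d →
        a.J (a.h₁ ^ o₁ * a.h₂ ^ o₂ * y) = (if a₁ + a₂ = 0 then c else d) • a.f := by
  have n₁ := a.nil₁
  have n₂ := a.nil₂
  have key : ∀ (h : A) (y : A) (c d : R), a.h₁ ^ o₁ * a.h₂ ^ o₂ * h * h = 0 →
      Rep a.σ (a.h₁ ^ o₁ * a.h₂ ^ o₂) h y c d → a.J (a.h₁ ^ o₁ * a.h₂ ^ o₂ * y) =
        c • a.J (a.h₁ ^ o₁ * a.h₂ ^ o₂) + d • a.J (a.h₁ ^ o₁ * a.h₂ ^ o₂ * h) := by
    intro h y c d hh p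
    rw [p hh, ← a.proj, ← a.proj, ← map_add]
    congr 1; ring
  rw [e₁] at n₁
  rw [e₂] at n₂
  have : (a₁ = 0 ∧ a₂ = 0) ∨ (a₁ = 1 ∧ a₂ = 0) ∨ (a₁ = 0 ∧ a₂ = 1) := by omega
  rcases this with ⟨rfl, rfl⟩ | ⟨rfl, rfl⟩ | ⟨rfl, rfl⟩
  · refine ⟨0, fun _ => ?_, fun _ => ?_, fun y c d p => ?_⟩
    · simp only [map_zero, mul_zero, add_zero] at n₁ ⊢
      linear_combination a.h₂ ^ o₂ * n₁
    · simp only [map_zero, mul_zero, add_zero] at n₂ ⊢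
      linear_combination a.h₁ ^ o₁ * n₂
    · rw [key 0 y c d (by ring) p, a.top]
      simp [e₁, e₂]
  · refine ⟨a.h₁, fun _ => by simp, fun _ => ?_, fun y c d p => ?_⟩
    · simp only [map_zero, mul_zero, add_zero, Nat.cast_zero, zero_mul] at n₂ ⊢
      linear_combination a.h₁ ^ o₁ * n₂
    · rw [key a.h₁ y c d (by linear_combination a.h₂ ^ o₂ * n₁) p, a.top,
        show a.h₁ ^ o₁ * a.h₂ ^ o₂ * a.h₁ = a.h₁ ^ (o₁ + 1) * a.h₂ ^ o₂ by ring, a.top]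
      simp [e₁, e₂]
  · refine ⟨a.h₂, fun _ => ?_, fun _ => by simp, fun y c d p => ?_⟩
    · simp only [map_zero, mul_zero, add_zero, Nat.cast_zero, zero_mul] at n₁ ⊢
      linear_combination a.h₂ ^ o₂ * n₁
    · rw [key a.h₂ y c d (by linear_combination a.h₁ ^ o₁ * n₂) p, a.top,
        show a.h₁ ^ o₁ * a.h₂ ^ o₂ * a.h₂ = a.h₁ ^ o₁ * a.h₂ ^ (o₂ + 1) by ring, a.top]
      simp [e₁, e₂]

theorem cf_eq (H : A) (F : A⟦X⟧) {n m : ℕ} (k : ℕ) (e : n = k + m) :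
    coeff n (C H * (X ^ m * F)) = H * coeff k F := by
  rw [coeff_C_mul, e, coeff_X_pow_mul]

end alg

theorem d0 : D0 := by
  intro A R V _ _ _ _ _ _ _ _ a o₁ o₂ a₁ a₂ A₁ A₂ e p u v q t t' e₁ e₂ hl
  obtain ⟨h, p₁, p₂, hJ⟩ := a.cases e₁ e₂ hl
  have pd := (p₂.sub p₁).cg (sub_zero _) rfl
  have T := ((t_G0 p₁ p₂ A₁ A₂ e).mul (t_slot pd t 0).p12).mul (t_slot pd t' 0).sq
  have E : core0 a.h₁ a.h₂ o₁ o₂ A₁ A₂ e * (zz t (a.h₂ - a.h₁) 0 * X) ^ 12 *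
      zz t' (a.h₂ - a.h₁) 0 ^ 2 = C (a.h₁ ^ o₁ * a.h₂ ^ o₂) * (X ^ (o₁ + o₂ + 26) *
      (G0 a.h₁ a.h₂ A₁ A₂ e *
      (C (algebraMap ℂ A t) + C (algebraMap ℂ A t * (a.h₂ - a.h₁) + a.σ 0) * X) ^ 12 *
      (C (algebraMap ℂ A t') + C (algebraMap ℂ A t' * (a.h₂ - a.h₁) + a.σ 0) * X) ^ 2)) := by
    rw [zz_eq', zz_eq', map_zero, core0, G0]
    generalize C (algebraMap ℂ A t) + _ = F
    generalize C (algebraMap ℂ A t') + _ = F'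
    ring
  rw [E, cf_eq _ _ (a₁ + a₂) (by omega), ← algebraMap_smul R]
  have : (a₁ = 0 ∧ a₂ = 0) ∨ (a₁ = 1 ∧ a₂ = 0) ∨ (a₁ = 0 ∧ a₂ = 1) := by omega
  rcases this with ⟨rfl, rfl⟩ | ⟨rfl, rfl⟩ | ⟨rfl, rfl⟩
  · rw [hJ _ _ _ T.1]
    congr 1
    simp [Eval.Mi, Eval.top]
  · rw [hJ _ _ _ T.2.1]
    congr 1
    simp [Eval.Mi, Eval.top, map_ofNat]
    ring
  · rw [hJ _ _ _ T.2.1]
    congr 1
    simp [Eval.Mi, Eval.top, map_ofNat]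
    ring

section fin

variable {R : Type*} [CommRing R] [Algebra ℂ R] (ℓ : R →ₗ[ℂ] ℂ) (x : Fin 4 → R) (al w : R)
  (s t t' κ δ γ : ℂ)

theorem l_mul (z : ℂ) (r : R) : ℓ (algebraMap ℂ R z * r) = z * ℓ r := by
  rw [← Algebra.smul_def, map_smul, smul_eq_mul]

/-- the linear coefficient -/
theorem fin1 (c : R)
    (hc : c = algebraMap ℂ R (t ^ 12 * t' ^ 2 * s) * (x 0 * x 1) +
      algebraMap ℂ R (t ^ 12 * t' ^ 2) * (x 0 * (x 2 - x 3)) +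
      algebraMap ℂ R (12 * t ^ 11 * t' ^ 2) * (al * x 0) +
      algebraMap ℂ R (2 * t ^ 12 * t') * (w * x 0))
    (ha : ℓ (al * x 0) = -s * t) (hw : ℓ (w * x 0) = -s * t') :
    ℓ c = t ^ 12 * (t' ^ 2 * (s * ℓ (x 0 * x 1) + ℓ (x 0 * (x 2 - x 3)) - 14 * s)) := by
  rw [hc]
  simp only [map_add ℓ, l_mul, ha, hw]
  ring

/-- the quadratic coefficient -/
theorem fin2 (c : R)
    (hc : c = algebraMap ℂ R (t ^ 12 * t' ^ 2 * ((κ + 12 * δ) * s)) * (x 0 * x 1) +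
      algebraMap ℂ R (t ^ 12 * t' ^ 2 * (κ + 11 * δ + s * γ)) * (x 0 * (x 2 - x 3)) +
      algebraMap ℂ R (t ^ 12 * t' ^ 2 * (γ * s)) * (x 1 * (x 2 - x 3)) +
      algebraMap ℂ R (-(t ^ 12 * t' ^ 2 * γ)) * (-(x 2 * x 2) + x 2 * x 3 - x 3 * x 3) +
      algebraMap ℂ R (12 * t ^ 11 * t' ^ 2 * (κ + s * γ + 11 * δ)) * (al * x 0) +
      algebraMap ℂ R (2 * t ^ 12 * t' * (κ + s * γ + 11 * δ)) * (w * x 0) +
      algebraMap ℂ R (12 * t ^ 11 * t' ^ 2 * (γ * s)) * (al * x 1) +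
      algebraMap ℂ R (2 * t ^ 12 * t' * (γ * s)) * (w * x 1) +
      algebraMap ℂ R (12 * t ^ 11 * t' ^ 2 * γ) * (al * x 2) +
      algebraMap ℂ R (2 * t ^ 12 * t' * γ) * (w * x 2) +
      algebraMap ℂ R (-(12 * t ^ 11 * t' ^ 2 * γ)) * (al * x 3) +
      algebraMap ℂ R (-(2 * t ^ 12 * t' * γ)) * (w * x 3) +
      algebraMap ℂ R (66 * t ^ 10 * t' ^ 2 * γ) * (al * al) +
      algebraMap ℂ R (24 * t ^ 11 * t' * γ) * (w * al) +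
      algebraMap ℂ R (t ^ 12 * γ) * (w * w))
    (ha : ℓ (al * x 0) = -s * t ∧ ℓ (al * x 1) = -s * t ∧ ℓ (al * x 2) = 2 * t ∧
      ℓ (al * x 3) = -2 * t ∧ ℓ (al * al) = 0)
    (hw : ℓ (w * x 0) = -s * t' ∧ ℓ (w * x 1) = -s * t' ∧ ℓ (w * x 2) = 2 * t' ∧
      ℓ (w * x 3) = -2 * t' ∧ ℓ (w * al) = 0) :
    ℓ c = t ^ 12 * (γ * ℓ (w * w) + t' ^ 2 * ((κ + 12 * δ) * s * ℓ (x 0 * x 1) +
      (κ + 11 * δ + s * γ) * ℓ (x 0 * (x 2 - x 3)) + γ * s * ℓ (x 1 * (x 2 - x 3)) -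
      γ * ℓ (-(x 2 * x 2) + x 2 * x 3 - x 3 * x 3) - 14 * s * (κ + s * γ + 11 * δ) -
      14 * γ * s * s + 56 * γ)) := by
  rw [hc]
  simp only [map_add ℓ (_ + _ : R) (algebraMap ℂ R _ * _),
    map_add ℓ (algebraMap ℂ R _ * _) (algebraMap ℂ R _ * _), l_mul, ha.1, ha.2.1, ha.2.2.1,
    ha.2.2.2.1, ha.2.2.2.2, hw.1, hw.2.1, hw.2.2.1, hw.2.2.2.1, hw.2.2.2.2]
  ring

end fin

theorem d1 : D1 := by
  intro A R V _ _ _ _ _ _ _ _ a o₁ o₂ a₁ a₂ A₁ A₂ e p u v q b x dg e₁ e₂ hl hp hu hv hq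
  obtain ⟨h, p₁, p₂, hJ⟩ := a.cases e₁ e₂ hl
  have pd := (p₂.sub p₁).cg (sub_zero _) rfl
  have pg : Rep a.σ (a.h₁ ^ o₁ * a.h₂ ^ o₂) h (cond b a.h₁ a.h₂) 0 (cond b a₁ a₂ : ℕ) := by
    cases b
    · exact p₂
    · exact p₁
  refine ⟨(cond b a₁ a₂ : ℕ), fun al t => ?_⟩
  intro g s d c ok
  have T := ((t_G0 p₁ p₂ A₁ A₂ e).mul (t_G1 pd pg s x)).mul (t_slot pd t al).p12
  have E : c = C (a.h₁ ^ o₁ * a.h₂ ^ o₂) * (X ^ (o₁ + o₂ + 25) * (G0 a.h₁ a.h₂ A₁ A₂ e *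
      G1 (g + a.σ (x 0)) (s • (g + a.σ (x 1))) (d - a.σ (x 2)) (d + a.σ (x 3)) *
      (C (algebraMap ℂ A t) + C (algebraMap ℂ A t * d + a.σ al) * X) ^ 12)) := by
    simp only [c]
    rw [zz_eq', ext4_eq, core0, G0]
    generalize C (algebraMap ℂ A t) + _ = F
    ring
  have hc : (a₁ = 0 ∧ a₂ = 0) ∨ (a₁ = 1 ∧ a₂ = 0) ∨ (a₁ = 0 ∧ a₂ = 1) := by omega
  refine ⟨?_, fun ha w t' hw => ?_⟩
  · rw [E, mul_assoc, mul_right_comm (X ^ _), ← pow_add, ← algebraMap_smul R (t ^ 12 * _ : ℂ)]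
    by_cases h0 : a₁ + a₂ = 0
    · obtain ⟨rfl, rfl⟩ : a₁ = 0 ∧ a₂ = 0 := by omega
      rw [coeff_C_mul, coeff_X_pow_mul', if_neg (by omega)]
      simp
    · rw [cf_eq _ _ 0 (by omega), hJ _ _ _ T.1, if_neg h0]
      congr 1
      simp only [map_mul, map_pow, map_natCast]
      ring
  · have T' := T.mul (t_slot pd t' w).sq
    let ℓ : R →ₗ[ℂ] ℂ := dg ∘ₗ (LinearMap.toSpanSingleton R V a.f).restrictScalars ℂ
    have hℓ : ∀ r, dg (r • a.f) = ℓ r := fun _ => rfl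
    simp only [ok, hℓ] at ha hw hp hu hv hq
    rw [E, zz_eq', mul_pow, mul_assoc, mul_mul_mul_comm, ← pow_add,
      cf_eq _ _ (a₁ + a₂ + 1) (by omega), hℓ]
    by_cases h0 : a₁ + a₂ = 0
    · obtain ⟨rfl, rfl⟩ : a₁ = 0 ∧ a₂ = 0 := by omega
      rw [hJ _ _ _ T'.2.1, if_pos rfl, hℓ, fin1 ℓ x al w s t t' _ ?_ ha.1 hw.1, hp, hu]
      · refine congrArg (t ^ 12 * ·) ?_
        cases b <;> simp [s, Eval.Mi, Eval.top] <;> ring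
      · simp only [map_mul, map_pow, map_ofNat]
        ring
    · rw [show a₁ + a₂ + 1 = 2 by omega, hJ _ _ _ T'.2.2, if_neg h0, hℓ, fin2 ℓ x al w s t t'
        (A₁ * a₁ - A₂ * a₂ + e * (a₂ - a₁)) (a₂ - a₁) (cond b a₁ a₂ : ℕ) _ ?_ ha hw, hp, hu, hv, hq]
      · refine congrArg (t ^ 12 * ·) ?_
        rcases hc with ⟨rfl, rfl⟩ | ⟨rfl, rfl⟩ | ⟨rfl, rfl⟩
        · exact absurd rfl h0
        · cases b <;> simp [s, Eval.Mi, Eval.top] <;> ring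
        · cases b <;> simp [s, Eval.Mi, Eval.top] <;> ring
      · simp only [map_mul, map_pow, map_ofNat, map_add, map_sub, map_neg, map_natCast,
          map_intCast]
        ring

end Vale.Agent.P297Z.Ev
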