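import Vale.Agent.P297Z.Ev.Avg
import Vale.Agent.P297Z.Sh.Gam

/-!
# P297: the values of the two functionals on the contribution of a fixed locus
-/

noncomputable section

namespace Vale.Agent.P297Z.Ev

open PowerSeries

variable {A B V W S : Spc}

theorem map_kA (f : Mor V W) (a b : K0 W) :
    map (GA.pullR ℂ f) (Sh.kA ℂ a b) = Sh.kA ℂ (pullK f a) (pullK f b) := by
  simp only [Sh.kA, map_add, map_mul, map_pow, map_C, map_X, map_one, GA.pullR_apply, pull_gc]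

theorem map_C_pull (f : Mor V W) (g : Mor W A) (x : GA ℂ A) :
    map (GA.pullR ℂ f) (C (GA.pull g x)) = C (GA.pull (g.comp f) x) := map_C _ _

/-- integration along the first of two slots -/
theorem AvgS.first (hS : S.IsVar 2) {y : (GA ℂ (B.prod S))⟦X⟧} {z : (GA ℂ B)⟦X⟧} (h : AvgS y z)
    {n : ℕ} (hB : B.IsVar n) (c : (GA ℂ B)⟦X⟧) (y' : (GA ℂ (B.prod S))⟦X⟧) (N : ℕ) :
    GH.push ((Mor.id B).map (Mor.snd S S)) (coeff N (map (GA.pullR ℂ (Mor.fst B (S.prod S))) c *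
      map (GA.pullR ℂ ((Mor.id B).map (Mor.fst S S))) y *
      map (GA.pullR ℂ ((Mor.id B).map (Mor.snd S S))) y') •
        fund ℂ (B.prod (S.prod S)) (n + (2 + 2))) =
      coeff N (map (GA.pullR ℂ (Mor.fst B S)) (c * z) * y') • fund ℂ (B.prod S) (n + 2) := by
  have hW := Nd.var_prod hB hS
  have hV := Nd.var_prod hW hS
  have hp := Nd.var_prod hB (Nd.var_prod hS hS)
  let e := ((Mor.id B).map (Mor.swap S S)).comp (Mor.assoc B S S)
  have he : GH.push e (fund ℂ _ (n + 2 + 2)) = fund ℂ (B.prod (S.prod S)) (n + (2 + 2)) :=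
    GH.push_fund_of_inv hV hp.proj _ ((Mor.assoc' B S S).comp ((Mor.id B).map (Mor.swap S S)))
      (by rw [Mor.comp_assoc, ← Mor.comp_assoc (Mor.assoc B S S), Mor.assoc_assoc', Mor.id_comp,
        Mor.map_map, Mor.swap_swap, Mor.id_comp, Mor.map_id])
      (by rw [Mor.comp_assoc, ← Mor.comp_assoc _ _ (Mor.assoc B S S), Mor.map_map, Mor.swap_swap,
        Mor.id_comp, Mor.map_id, Mor.id_comp, Mor.assoc'_assoc])
  have e1 : ((Mor.id B).map (Mor.snd S S)).comp e = Mor.fst _ S := by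
    rw [← Mor.comp_assoc, Mor.map_map, Mor.swap, Mor.snd_lift, Mor.assoc, Mor.map_lift,
      Mor.fst_lift, Mor.id_comp, Mor.id_comp, Mor.lift_eta]
  have e2 : ((Mor.id B).map (Mor.fst S S)).comp e = (Mor.fst B S).map (Mor.id S) := by
    rw [← Mor.comp_assoc, Mor.map_map, Mor.swap, Mor.fst_lift, Mor.assoc, Mor.map_lift,
      Mor.snd_lift]
    rfl
  have e3 : (Mor.fst B (S.prod S)).comp e = (Mor.fst B S).comp (Mor.fst _ S) := by
    rw [← Mor.comp_assoc, Mor.fst_map, Mor.id_comp, Mor.assoc, Mor.fst_lift]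
  rw [push_along hV.proj hp.proj hW.proj e he, e1, RingHom.map_mul, RingHom.map_mul, map_map,
    map_map, map_map, e1, e2, e3, ← map_map, mul_right_comm, ← RingHom.map_mul, h.one hS hW,
    RingHom.map_mul, mul_right_comm]

theorem push_snd_mul (hS : S.IsVar 2) {n : ℕ} (hB : B.IsVar n) (x : GA ℂ B) (m : GA ℂ S) :
    GH.push (Mor.snd B S) ((GA.pull (Mor.fst B S) x * GA.pull (Mor.snd B S) m) •
      fund ℂ (B.prod S) (n + 2)) = GH.deg (x • fund ℂ B n) • m • fund ℂ S 2 := by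
  rw [mul_comm, mul_act, GH.push_proj (Nd.var_prod hB hS).proj hS.proj, GH.push_snd_fund hB hS,
    smul_comm]

theorem fn0_amk (hS : S.IsVar 2) (τ : G S →+ ℂ) {i : ℕ} {a : K0 S} (ha : a ∈ FF S i)
    (hi : i ≠ 2) : GH.fn0 τ (amk ℂ i a • fund ℂ S 2) = 0 := by
  rw [amk_fund hS ha]
  split_ifs with h
  · rw [GH.fn0_hmk hS.fr _ (act_oG_mem hS ha h), if_neg (by omega)]
  · exact map_zero _

theorem fn0_gc (hS : S.IsVar 2) (τ : G S →+ ℂ) (M : K0 S) :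
    GH.fn0 τ (gc ℂ 1 M • fund ℂ S 2) = 0 := fn0_amk hS τ (Nd.cc_mem_FF 1 M) (by omega)

theorem fn0_one (hS : S.IsVar 2) (τ : G S →+ ℂ) :
    GH.fn0 τ ((1 : GA ℂ S) • fund ℂ S 2) = 0 := by
  rw [← amk_one]
  exact fn0_amk hS τ (Gd.mem_FF_zero _) (by omega)

theorem deg_amk (hS : S.IsVar 2) {i : ℕ} {a : K0 S} (ha : a ∈ FF S i) (hi : i ≠ 2) :
    GH.deg (amk ℂ i a • fund ℂ S 2) = 0 := fn0_amk hS _ ha hi

theorem deg_amk_gc (hS : S.IsVar 2) {i : ℕ} {a : K0 S} (ha : a ∈ FF S i) (hi : i ≠ 1)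
    (M : K0 S) : pr (amk ℂ i a) (gc ℂ 1 M) = 0 := by
  rw [pr, gc, ← amk_mul ha (Nd.cc_mem_FF 1 M)]
  exact deg_amk hS (Gd.FF_mul ha (Nd.cc_mem_FF 1 M)) (by omega)

theorem deg_amk_gc2 (hS : S.IsVar 2) {i : ℕ} {a : K0 S} (ha : a ∈ FF S i) (hi : i ≠ 0)
    (M M' : K0 S) : pr (amk ℂ i a) (gc ℂ 1 M * gc ℂ 1 M') = 0 := by
  have h := Gd.FF_mul (Nd.cc_mem_FF 1 M) (Nd.cc_mem_FF 1 M')
  rw [pr, gc, gc, ← amk_mul (Nd.cc_mem_FF 1 M) (Nd.cc_mem_FF 1 M'), ← amk_mul ha h]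
  exact deg_amk hS (Gd.FF_mul ha h) (by omega)

theorem pr_sum {ι : Type} [Fintype ι] (a : ι → ℂ) (x : ι → GA ℂ S) (y : GA ℂ S)
    (h : ∀ i, pr (x i) y = 0) : pr (∑ i, a i • x i) y = 0 := by
  rw [pr, Finset.sum_mul, Finset.sum_smul, map_sum]
  refine Finset.sum_eq_zero fun i _ => ?_
  rw [smul_mul_assoc, smul_assoc, LinearMap.map_smul]
  exact (congrArg (a i • ·) (h i)).trans (smul_zero _)

section ring

variable {R : Type*} [CommRing R]

theorem kap_mul (u v D c : R) :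
    (C u * X * (1 + C v * X) + C D * X ^ 2) * C c =
      C (u * c) * X ^ 1 + C (u * v * c + D * c) * X ^ 2 := by
  simp only [map_add, map_mul]
  ring

theorem zz_eqG [Algebra ℂ R] (t : ℂ) (d n : R) :
    zz t d n = C (algebraMap ℂ R t) * X ^ 1 + C (t • d + n) * X ^ 2 := by
  simp only [zz, map_add, map_mul, Algebra.smul_def]
  ring

theorem coeff_kap {R' : Type*} [CommRing R'] [Algebra ℂ R] (φ : R →+* R') (s : R⟦X⟧) (d n : R)
    (u v D : R') (N : ℕ) :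
    coeff N (map φ (s * zz 0 d n) * (C u * X * (1 + C v * X) + C D * X ^ 2)) =
      φ (coeff N (s * X ^ 3) * n) * u + φ (coeff N (s * X ^ 4) * n) * (u * v + D) := by
  have e : map φ (s * zz 0 d n) * (C u * X * (1 + C v * X) + C D * X ^ 2) =
      map φ (s * X ^ 3 * C n) * C u + map φ (s * X ^ 4 * C n) * C (u * v + D) := by
    simp only [zz, map_add, map_mul, map_zero, map_pow, map_X, map_C, zero_mul, zero_add]
    ring
  rw [e, map_add, coeff_mul_C, coeff_mul_C, coeff_map, coeff_map, coeff_mul_C, coeff_mul_C]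

end ring

variable {L₁ M₁ L₂ M₂ : K0 S} {v₁ v₂ n₁ n₂ o₁ o₂ : ℕ}
  {T₁ : Tower S L₁ M₁ v₁ n₁ o₁} {T₂ : Tower S L₂ M₂ v₂ n₂ o₂} (b : Base T₁ T₂)

/-- the class `kappa` on the model -/
def Base.kB : (GA ℂ (b.B.prod S))⟦X⟧ :=
  map (GA.pullR ℂ (b.r.map (Mor.id S))) (Sh.kA ℂ (E1 T₁ T₂) (E2 T₁ T₂))

theorem Base.kB_eq : b.kB =
    C (GA.pull (Mor.fst b.B S) b.h₁ + GA.pull (Mor.snd b.B S) (gc ℂ 1 M₁)) * X *
      (1 + C (GA.pull (Mor.fst b.B S) b.h₂ + GA.pull (Mor.snd b.B S) (gc ℂ 1 M₂)) * X) +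
      C b.Del * X ^ 2 := by
  rw [← b.kap, Sh.ld_kappa, Base.kB]

theorem Base.avg_kB (hS : S.IsVar 2) {c : GA ℂ S} {t : ℂ} (h0 : pr c 1 = 0)
    (h1 : pr c (gc ℂ 1 M₁) = t) (h2 : pr c (gc ℂ 1 M₂) = -t)
    (h3 : pr c (gc ℂ 1 M₁ * gc ℂ 1 M₂) = 0) :
    AvgS (b.kB * C (GA.pull (Mor.snd b.B S) c)) (zz t (b.h₂ - b.h₁) (b.nu c)) := by
  rw [b.kB_eq, kap_mul, zz_eqG]
  rw [pr] at h0 h1 h2 h3
  refine (AvgS.mono ?_ 1).add (AvgS.mono ?_ 2)
  · refine ((Avg.fst_snd hS b.h₁ (c * 1)).add (Avg.snd hS (c * gc ℂ 1 M₁))).congr ?_ ?_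
    · simp only [map_mul, map_one]
      ring
    · rw [h0, h1, zero_smul, zero_add]
  · refine (((((Avg.fst_snd hS (b.h₁ * b.h₂) (c * 1)).add
      (Avg.fst_snd hS b.h₁ (c * gc ℂ 1 M₂))).add (Avg.fst_snd hS b.h₂ (c * gc ℂ 1 M₁))).add
      (Avg.snd hS (c * (gc ℂ 1 M₁ * gc ℂ 1 M₂)))).add (b.avg c)).congr ?_ ?_
    · simp only [map_mul, map_one]
      ring
    · rw [h0, h1, h2, h3]
      simp only [Algebra.smul_def, map_zero, map_neg]
      ring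

/-- the contribution after the integration along the `k` slots -/
theorem Base.GamA_eq (hS : S.IsVar 2) (k : ℕ) {al : GA ℂ S} {t : ℂ}
    (h : AvgS (b.kB * C (GA.pull (Mor.snd b.B S) al)) (zz t (b.h₂ - b.h₁) (b.nu al))) :
    (Sh.GamA T₁ T₂ fun _ : Fin k => al) = ((-1 : ℤ) ^ (rk _ (bM T₁ T₂)).natAbs) •
      GH.push (Mor.snd b.B (S.prod S)) (coeff (v₁ + 2 * n₁ + (v₂ + 2 * n₂) + 2 * k + 2)
        (map (GA.pullR ℂ (Mor.fst b.B (S.prod S))) (b.cz k t al) *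
          map (GA.pullR ℂ ((Mor.id b.B).map (Mor.fst S S))) b.kB *
          map (GA.pullR ℂ ((Mor.id b.B).map (Mor.snd S S))) b.kB) •
        fund ℂ (b.B.prod (S.prod S)) (v₁ + 2 * n₁ + (v₂ + 2 * n₂) + (2 + 2))) := by
  have hP := Nd.var_prod hS hS
  have hk := var_pow hS k
  have hX := Sh.var_Fx T₁ T₂
  have hA := Nd.var_prod b.var hP
  have hV := Nd.var_prod hA hk
  have hU := Nd.var_prod (Nd.var_prod b.var hk) hP
  have hW := Sh.var_Wk T₁ T₂ hS k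
  let e : Mor _ (Wk (Fx T₁ T₂) S k) := ((b.r.map (Mor.id (S.pow k))).map (Mor.id (S.prod S))).comp
    (Mor.rot b.B (S.prod S) (S.pow k))
  have he : GH.push e (fund ℂ _ (v₁ + 2 * n₁ + (v₂ + 2 * n₂) + (2 + 2) + 2 * k)) =
      fund ℂ (Wk (Fx T₁ T₂) S k) (v₁ + 2 * n₁ + (v₂ + 2 * n₂) + 2 * k + (2 + 2)) := by
    rw [GH.push_comp hV.proj hU.proj hW.proj,
      GH.push_fund_of_inv hV hU.proj _ _ Mor.rot_rot Mor.rot_rot, add_right_comm,
      ← GH.xf_fund (Nd.var_prod b.var hk) hP,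
      GH.push_xf (Nd.var_prod b.var hk) (Nd.var_prod hX hk) hP, ← GH.xf_fund b.var hk,
      GH.push_xf b.var hX hk, b.rf, GH.xf_fund hX hk, GH.xf_fund (Nd.var_prod hX hk) hP]
  have f1 : (Mor.fst _ _).comp e =
      (b.r.comp (Mor.fst b.B (S.prod S))).map (Mor.id (S.pow k)) := by
    rw [← Mor.comp_assoc, Mor.fst_map, Mor.comp_assoc, Mor.rot, Mor.fst_lift, Mor.map_map]
    rfl
  have f2 : (Mor.snd _ _).comp e = (Mor.snd b.B (S.prod S)).comp (Mor.fst _ _) := by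
    rw [← Mor.comp_assoc, Mor.snd_map, Mor.id_comp, Mor.rot, Mor.snd_lift]
  have e0 : (Wk.base (Fx T₁ T₂) S k).comp e = (b.r.comp (Mor.fst _ _)).comp (Mor.fst _ _) := by
    rw [Wk.base, Mor.comp_assoc, f1, Mor.fst_map]
  have e1 : ∀ j, (Wk.sl (Fx T₁ T₂) S k (.inl j)).comp e =
      (Mor.snd b.B S).comp ((Mor.fst b.B (S.prod S)).map (slot S k j)) := fun j => by
    rw [Wk.sl, Mor.comp_assoc, Mor.comp_assoc, f1, Mor.snd_map, Mor.snd_map]
    rfl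
  have e2 : ∀ j, (Mor.lift (Wk.base (Fx T₁ T₂) S k) (Wk.sl _ S k (.inl j))).comp e =
      (b.r.map (Mor.id S)).comp ((Mor.fst b.B (S.prod S)).map (slot S k j)) := fun j => by
    rw [Mor.lift_comp, e0, e1, Mor.snd_map, Mor.map_map]
    rfl
  have e3 : (Mor.lift (Wk.base (Fx T₁ T₂) S k) (Wk.sl _ S k (.inr false))).comp e =
      ((b.r.map (Mor.id S)).comp ((Mor.id b.B).map (Mor.fst S S))).comp (Mor.fst _ _) := by
    rw [Mor.lift_comp, e0, Wk.sl, Mor.comp_assoc _ _ e, f2, Mor.map_map, Mor.map, Mor.lift_comp]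
    rfl
  have e4 : (Mor.lift (Wk.base (Fx T₁ T₂) S k) (Wk.sl _ S k (.inr true))).comp e =
      ((b.r.map (Mor.id S)).comp ((Mor.id b.B).map (Mor.snd S S))).comp (Mor.fst _ _) := by
    rw [Mor.lift_comp, e0, Wk.sl, Mor.comp_assoc _ _ e, f2, Mor.map_map, Mor.map, Mor.lift_comp]
    rfl
  have hs := h.mul_X.slots hS hA (Mor.fst b.B (S.prod S))
    (v₁ + 2 * n₁ + (v₂ + 2 * n₂) + 2 * k + 2) k
    (map (GA.pullR ℂ (b.r.comp (Mor.fst b.B (S.prod S)))) (Sh.coreA ℂ T₁ T₂) *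
      map (GA.pullR ℂ ((Mor.id b.B).map (Mor.fst S S))) b.kB *
      map (GA.pullR ℂ ((Mor.id b.B).map (Mor.snd S S))) b.kB)
  rw [Sh.GamA, Sh.bodyA, ← coeff_C_mul, push_along hV.proj hW.proj hP.proj e he, f2,
    GH.push_comp hV.proj hA.proj hP.proj]
  congr 2
  refine Eq.trans ?_ (hs.trans ?_)
  · congr 3
    simp only [Wk.at, ← map_kA, Fintype.prod_sum_type, Fintype.prod_bool, map_prod,
      RingHom.map_mul, map_pow, map_X, map_map, map_C_pull, e0, e1, e2, e3, e4, Base.kB,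
      Finset.prod_mul_distrib, Finset.prod_const, Finset.card_univ, Fintype.card_fin]
    ring
  · congr 2
    rw [Base.cz, Sh.ld_core, RingHom.map_mul (map _) _ (_ ^ k), map_map, map_pow]
    ring

theorem gen : Gen := by
  intro S hS L₁ M₁ L₂ M₂ v₁ v₂ n₁ n₂ o₁ o₂ T₁ T₂ b k ι _ a w t hw al n sg h1 h2
  have hw' : ∀ i, w i ∈ FF S 1 := fun i => Gd.mem_FF_one (hw i)
  have hP := Nd.var_prod hS hS
  have hA := Nd.var_prod b.var hP
  have hB := Nd.var_prod b.var hS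
  have hG := b.GamA_eq hS k (b.avg_kB hS (c := al)
    (pr_sum _ _ _ fun i => by rw [pr, mul_one]; exact deg_amk hS (hw' i) (by omega)) h1 h2
    (pr_sum _ _ _ fun i => deg_amk_gc2 hS (hw' i) (by omega) _ _))
  have hsg : ∀ x : ℂ, ((-1 : ℤ) ^ (rk _ (bM T₁ T₂)).natAbs) • x = sg * x := fun x => by
    rw [zsmul_eq_mul, Int.cast_pow, Int.cast_neg, Int.cast_one]
  have g1 : (Mor.snd b.B S).comp ((Mor.id b.B).map (Mor.fst S S)) =
      (Mor.fst S S).comp (Mor.snd b.B (S.prod S)) := Mor.snd_map _ _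
  have g2 : (Mor.snd b.B S).comp ((Mor.id b.B).map (Mor.snd S S)) =
      (Mor.snd S S).comp (Mor.snd b.B (S.prod S)) := Mor.snd_map _ _
  refine ⟨fun w' t' hr k1 k2 => ?_, fun τ z z' => ?_⟩
  · have hm := Gd.mem_FF_one hr
    have hz := b.avg_kB hS (by rw [pr, mul_one]; exact deg_amk hS hm (by omega)) k1 k2
      (deg_amk_gc2 hS hm (by omega) _ _)
    have h3 := hz.first hS b.var (b.cz k t al) (b.kB * C (GA.pull (Mor.snd b.B S) (amk ℂ 1 w')))
      (n + 2 * k + 2)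
    have h4 := hz.one hS b.var (Mor.id _)
      (b.cz k t al * zz t' (b.h₂ - b.h₁) (b.nu (amk ℂ 1 w'))) (n + 2 * k + 2)
    have i1 : ∀ {U : Spc} (s : (GA ℂ U)⟦X⟧), map (GA.pullR ℂ (Mor.id U)) s = s := fun s => by
      ext i
      rw [coeff_map]
      rfl
    rw [Mor.map_id, i1, i1, mul_assoc, ← pow_two] at h4
    rw [Sh.GamF_eq T₁ T₂ hS a hw' _ (Sh.kill_Psi hS hm), Sh.fn_Psi hS hm, hG, smul_comm,
      map_zsmul, hsg, ← GH.push_proj hA.proj hP.proj, GH.deg_push hA.proj hP.proj, ← h4,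
      GH.deg_push hB.proj b.var.proj, ← h3, GH.deg_push hA.proj hB.proj, ← mul_act,
      ← coeff_C_mul]
    congr 4
    rw [RingHom.map_mul _ b.kB, RingHom.map_mul _ b.kB, map_C_pull, map_C_pull, g1, g2,
      map_mul (GA.pull _), map_mul C, GA.pull_comp, GA.pull_comp]
    ring
  · intro ξ y hξ
    have hm := Sh.dK_mem z z'
    have hz := b.avg_kB hS (c := ξ) (t := 0) (by rw [pr, mul_one]; exact hξ)
      (deg_amk_gc hS hm (by omega) _) (by rw [neg_zero]; exact deg_amk_gc hS hm (by omega) _)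
      (deg_amk_gc2 hS hm (by omega) _ _)
    have h3 := hz.first hS b.var (b.cz k t al) b.kB (n + 2 * k + 2)
    have h5 : GH.fn0 τ (GH.push (Mor.snd b.B S) (coeff (n + 2 * k + 2)
        (map (GA.pullR ℂ (Mor.fst b.B S)) (b.cz k t al * zz 0 (b.h₂ - b.h₁) (b.nu ξ)) * b.kB) •
          fund ℂ (b.B.prod S) (n + 2))) = GH.fn0 τ (b.mu y) +
        GH.fn0 τ ((gc ℂ 1 M₁ * gc ℂ 1 M₂) • fund ℂ S 2) * GH.deg (y • fund ℂ b.B n) := by
      set y' := coeff (n + 2 * k + 2) (b.cz k t al * X ^ 3) * b.nu ξ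
      have e : coeff (n + 2 * k + 2) (map (GA.pullR ℂ (Mor.fst b.B S))
          (b.cz k t al * zz 0 (b.h₂ - b.h₁) (b.nu ξ)) * b.kB) =
          GA.pull (Mor.fst b.B S) y * b.Del +
          GA.pull (Mor.fst b.B S) y * GA.pull (Mor.snd b.B S) (gc ℂ 1 M₁ * gc ℂ 1 M₂) +
          GA.pull (Mor.fst b.B S) (y' * b.h₁ + y * b.h₁ * b.h₂) * GA.pull (Mor.snd b.B S) 1 +
          GA.pull (Mor.fst b.B S) (y' + y * b.h₂) * GA.pull (Mor.snd b.B S) (gc ℂ 1 M₁) +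
          GA.pull (Mor.fst b.B S) (y * b.h₁) * GA.pull (Mor.snd b.B S) (gc ℂ 1 M₂) := by
        rw [b.kB_eq, coeff_kap, GA.pullR_apply, GA.pullR_apply]
        change GA.pull _ y' * _ + GA.pull _ y * _ = _
        simp only [map_add, map_mul, map_one]
        ring
      rw [e]
      simp only [add_smul, LinearMap.map_add, b.psh, push_snd_mul hS b.var, LinearMap.map_smul,
        fn0_one hS, fn0_gc hS, smul_eq_mul, n]
      ring
    rw [Sh.GamF_eq T₁ T₂ hS a hw' _ (Sh.kill_Phi hS τ z z'), Sh.fn_Phi hS, hG, smul_comm,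
      map_zsmul, map_zsmul, hsg, ← h5, ← h3, ← GH.push_proj hA.proj hP.proj,
      ← GH.push_comp hA.proj hP.proj hS.proj, ← GH.push_comp hA.proj hB.proj hS.proj, g2,
      ← mul_act, ← coeff_C_mul]
    congr 5
    rw [RingHom.map_mul _ b.kB, map_C_pull, g1, GA.pull_comp]
    ring

end Vale.Agent.P297Z.Ev
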