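import Vale.Agent.P297Z.Ev.Main
import Vale.Agent.P297Z.Ev.Alg
import Vale.Agent.P297Z.Ev.Gen
import Vale.Agent.P297Z.Diag.Dia

/-!
# P297: the loci with at most one point
-/

namespace Vale.Agent.P297Z

theorem Sf.ev : Sf.EV := Ev.ev_of Ev.d0 Ev.d1 Ev.gen Dg.dia

end Vale.Agent.P297Z
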