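import Vale.Agent.P297Z.Ev.Defs
import Vale.Agent.P297Z.K.Cat

/-!
# P297: integration along a surface, with all base changes
-/

noncomputable section

namespace Vale.Agent.P297Z.Ev

open PowerSeries

variable {A B V W S : Spc}

theorem mul_act (x y : GA ℂ W) (g : GH ℂ W) : (x * y) • g = x • y • g := by
  rw [GA.smul_def, GA.smul_def, GA.smul_def, map_mul]; rfl

/-- the average of all coefficients of a series -/
def AvgS (y : (GA ℂ (B.prod S))⟦X⟧) (z : (GA ℂ B)⟦X⟧) : Prop :=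
  ∀ i, Avg (coeff i y) (coeff i z)

namespace Avg

variable {y y' : GA ℂ (B.prod S)} {z z' : GA ℂ B}

theorem zero : Avg (0 : GA ℂ (B.prod S)) 0 := fun W n _ b => by
  rw [map_zero, map_zero, zero_smul, zero_smul, map_zero]

theorem add (h : Avg y z) (h' : Avg y' z') : Avg (y + y') (z + z') := fun W n hW b => by
  rw [map_add, map_add, add_smul, add_smul, map_add, h W n hW b, h' W n hW b]

theorem smul (h : Avg y z) (c : ℂ) : Avg (c • y) (c • z) := fun W n hW b => by
  rw [map_smul (GA.pull _), map_smul (GA.pull _), smul_assoc, smul_assoc, LinearMap.map_smul,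
    h W n hW b]

theorem neg (h : Avg y z) : Avg (-y) (-z) := fun W n hW b => by
  rw [map_neg (GA.pull _), map_neg (GA.pull _), neg_smul, neg_smul, map_neg, h W n hW b]

theorem sub (h : Avg y z) (h' : Avg y' z') : Avg (y - y') (z - z') := by
  rw [sub_eq_add_neg, sub_eq_add_neg]
  exact h.add h'.neg

theorem sum {ι : Type*} (s : Finset ι) {y : ι → GA ℂ (B.prod S)} {z : ι → GA ℂ B}
    (h : ∀ i ∈ s, Avg (y i) (z i)) : Avg (∑ i ∈ s, y i) (∑ i ∈ s, z i) := by
  classical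
  induction s using Finset.induction_on with
  | empty => simpa only [Finset.sum_empty] using zero
  | insert a s ha ih =>
    rw [Finset.sum_insert ha, Finset.sum_insert ha]
    exact (h a (Finset.mem_insert_self _ _)).add
      (ih fun i hi => h i (Finset.mem_insert_of_mem hi))

theorem congr (h : Avg y z) (e : y = y') (e' : z = z') : Avg y' z' := e ▸ e' ▸ h

theorem mul_fst (hS : S.IsVar 2) (h : Avg y z) (x : GA ℂ B) :
    Avg (GA.pull (Mor.fst B S) x * y) (x * z) := fun W n hW b => by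
  rw [map_mul, map_mul, mul_act, mul_act, ← h W n hW b, ← GA.pull_comp, Mor.fst_map,
    GA.pull_comp, GH.push_proj (Nd.var_prod hW hS).proj hW.proj]

theorem snd (hS : S.IsVar 2) (c : GA ℂ S) :
    Avg (GA.pull (Mor.snd B S) c) (algebraMap ℂ _ (GH.deg (c • fund ℂ S 2))) := fun W n hW b => by
  rw [← GA.pull_comp, Mor.snd_map, Mor.id_comp, GH.push_fst_fund hS hW, AlgHom.commutes,
    algebraMap_smul]

theorem fst_snd (hS : S.IsVar 2) (x : GA ℂ B) (c : GA ℂ S) :
    Avg (GA.pull (Mor.fst B S) x * GA.pull (Mor.snd B S) c) (GH.deg (c • fund ℂ S 2) • x) :=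
  ((snd hS c).mul_fst hS x).congr rfl (by rw [mul_comm, Algebra.smul_def])

theorem pull (h : Avg y z) (f : Mor A B) :
    Avg (GA.pull (f.map (Mor.id S)) y) (GA.pull f z) := fun W n hW b => by
  rw [← GA.pull_comp, ← GA.pull_comp, Mor.map_map, Mor.id_comp]
  exact h W n hW _

/-- the class of the graph of `s` evaluates at the graph -/
theorem graph (hS : S.IsVar 2) (s : Mor B S) {D : GA ℂ (B.prod S)}
    (hD : ∀ (W : Spc) (n : ℕ), W.IsVar n → ∀ b : Mor W B,
      GA.pull (b.map (Mor.id S)) D • fund ℂ (W.prod S) (n + 2) =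
        GH.push (Mor.lift (Mor.id W) (s.comp b)) (fund ℂ W n)) (y : GA ℂ (B.prod S)) :
    Avg (D * y) (GA.pull (Mor.lift (Mor.id B) s) y) := fun W n hW b => by
  have hp := (Nd.var_prod hW hS).proj
  rw [map_mul, mul_comm, mul_act, hD W n hW b, ← GH.push_proj hW.proj hp,
    ← GH.push_comp hW.proj hp hW.proj, Mor.fst_lift, GH.push_id hW.proj, ← GA.pull_comp,
    ← GA.pull_comp, Mor.map_lift, Mor.lift_comp]
  rfl

end Avg

theorem avgGr : AvgGr := fun S _ hS hD B s y => Avg.graph hS s (fun W n hW b => by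
  rw [map_neg, pull_gc, ds, ← pullK_comp, Mor.map_map]
  exact hD.c2 W n hW (s.comp b)) y

namespace AvgS

variable {y y' : (GA ℂ (B.prod S))⟦X⟧} {z z' : (GA ℂ B)⟦X⟧}

theorem add (h : AvgS y z) (h' : AvgS y' z') : AvgS (y + y') (z + z') := fun i => by
  rw [map_add, map_add]
  exact (h i).add (h' i)

theorem congr (h : AvgS y z) (e : y = y') (e' : z = z') : AvgS y' z' := e ▸ e' ▸ h

theorem mono {y : GA ℂ (B.prod S)} {z : GA ℂ B} (h : Avg y z) (n : ℕ) :
    AvgS (C y * X ^ n) (C z * X ^ n) := fun i => by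
  rw [coeff_C_mul, coeff_C_mul, coeff_X_pow, coeff_X_pow]
  split_ifs
  · rwa [mul_one, mul_one]
  · rw [mul_zero, mul_zero]
    exact Avg.zero

theorem mul_X (h : AvgS y z) : AvgS (y * X) (z * X) := fun i => by
  rcases i with _ | i
  · rw [coeff_zero_mul_X, coeff_zero_mul_X]
    exact Avg.zero
  · rw [coeff_succ_mul_X, coeff_succ_mul_X]
    exact h i

theorem mul_fst (hS : S.IsVar 2) (h : AvgS y z) (c : (GA ℂ B)⟦X⟧) :
    AvgS (map (GA.pullR ℂ (Mor.fst B S)) c * y) (c * z) := fun i => by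
  rw [coeff_mul, coeff_mul]
  refine Avg.sum _ fun p _ => ?_
  rw [coeff_map]
  exact (h p.2).mul_fst hS _

theorem pull (h : AvgS y z) (f : Mor A B) :
    AvgS (map (GA.pullR ℂ (f.map (Mor.id S))) y) (map (GA.pullR ℂ f) z) := fun i => by
  rw [coeff_map, coeff_map]
  exact (h i).pull f

/-- integration along one slot -/
theorem one (hS : S.IsVar 2) (h : AvgS y z) {n : ℕ} (hA : A.IsVar n) (b : Mor A B)
    (c : (GA ℂ A)⟦X⟧) (N : ℕ) :
    GH.push (Mor.fst A S) (coeff N (map (GA.pullR ℂ (Mor.fst A S)) c *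
      map (GA.pullR ℂ (b.map (Mor.id S))) y) • fund ℂ (A.prod S) (n + 2)) =
      coeff N (c * map (GA.pullR ℂ b) z) • fund ℂ A n := by
  have := ((h.pull b).mul_fst hS c) N A n hA (Mor.id A)
  rwa [Mor.map_id, GA.pull_id, GA.pull_id] at this

end AvgS

theorem map_map (g : Mor W A) (f : Mor V W) (s : (GA ℂ A)⟦X⟧) :
    map (GA.pullR ℂ f) (map (GA.pullR ℂ g) s) = map (GA.pullR ℂ (g.comp f)) s := by
  ext i
  rw [coeff_map, coeff_map, coeff_map]
  rfl

/-- change of the space along a map of degree one -/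
theorem push_along {U : Spc} (hV : V.IsProj) (hW : W.IsProj) (hU : U.IsProj) (e : Mor V W)
    {n m : ℕ} (he : GH.push e (fund ℂ V n) = fund ℂ W m) (q : Mor W U) (s : (GA ℂ W)⟦X⟧) (N : ℕ) :
    GH.push q (coeff N s • fund ℂ W m) =
      GH.push (q.comp e) (coeff N (map (GA.pullR ℂ e) s) • fund ℂ V n) := by
  rw [← he, ← GH.push_proj hV hW, ← GH.push_comp hV hW hU, coeff_map]
  rfl

theorem var_pow (hS : S.IsVar 2) : ∀ k, (S.pow k).IsVar (2 * k)
  | 0 => Nd.var_pt
  | k + 1 => Nd.var_prod (var_pow hS k) hS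

theorem slot_last (k : ℕ) : slot S (k + 1) (Fin.last k) = Mor.snd _ _ :=
  Fin.lastCases_last (motive := fun _ => Mor ((S.pow k).prod S) S)

theorem slot_castSucc (k : ℕ) (j : Fin k) :
    slot S (k + 1) j.castSucc = (slot S k j).comp (Mor.fst _ _) :=
  Fin.lastCases_castSucc (motive := fun _ => Mor ((S.pow k).prod S) S) j

theorem AvgS.step (hS : S.IsVar 2) {y : (GA ℂ (B.prod S))⟦X⟧} {z : (GA ℂ B)⟦X⟧} (h : AvgS y z)
    {n m k : ℕ} (hA : A.IsVar n) (b : Mor A B) (N : ℕ) {P : Spc} (hP : P.IsVar m)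
    (σ : Fin k → Mor P S) (σ' : Fin (k + 1) → Mor (P.prod S) S)
    (h1 : σ' (Fin.last k) = Mor.snd _ _) (h2 : ∀ j, σ' j.castSucc = (σ j).comp (Mor.fst _ _))
    (ih : ∀ c : (GA ℂ A)⟦X⟧, GH.push (Mor.fst A P) (coeff N (map (GA.pullR ℂ (Mor.fst A P)) c *
      ∏ j, map (GA.pullR ℂ (b.map (σ j))) y) • fund ℂ (A.prod P) (n + m)) =
      coeff N (c * map (GA.pullR ℂ b) z ^ k) • fund ℂ A n) (c : (GA ℂ A)⟦X⟧) :
    GH.push (Mor.fst A (P.prod S)) (coeff N (map (GA.pullR ℂ (Mor.fst A (P.prod S))) c *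
      ∏ j, map (GA.pullR ℂ (b.map (σ' j))) y) • fund ℂ (A.prod (P.prod S)) (n + m + 2)) =
      coeff N (c * map (GA.pullR ℂ b) z ^ (k + 1)) • fund ℂ A n := by
  have hW := Nd.var_prod hA hP
  have hp := Nd.var_prod hA (Nd.var_prod hP hS)
  have hV := Nd.var_prod hW hS
  have he : GH.push (Mor.assoc A P S) (fund ℂ _ (n + m + 2)) =
      fund ℂ (A.prod (P.prod S)) (n + m + 2) :=
    GH.push_fund_of_inv hV hp.proj _ (Mor.assoc' A P S) Mor.assoc_assoc' Mor.assoc'_assoc
  have e1 : (Mor.fst A (P.prod S)).comp (Mor.assoc A P S) =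
      (Mor.fst A P).comp (Mor.fst _ S) := Mor.fst_lift _ _
  have e2 : ∀ j : Fin k, (b.map (σ' j.castSucc)).comp (Mor.assoc A P S) =
      (b.map (σ j)).comp (Mor.fst _ S) := fun j => by
    rw [h2, Mor.assoc, Mor.map_lift, Mor.comp_assoc, Mor.fst_lift, Mor.map, Mor.lift_comp]
    rfl
  have e3 : (b.map (σ' (Fin.last k))).comp (Mor.assoc A P S) =
      (b.comp (Mor.fst A P)).map (Mor.id S) := by
    rw [h1, Mor.assoc, Mor.map_lift, Mor.snd_lift]
    rfl
  rw [push_along hV.proj hp.proj hA.proj _ he, e1, GH.push_comp hV.proj hW.proj hA.proj,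
    Fin.prod_univ_castSucc, RingHom.map_mul, RingHom.map_mul, map_prod, map_map, e1]
  simp only [map_map, e2, e3]
  simp only [← map_map _ (Mor.fst _ S)]
  rw [← map_prod, ← mul_assoc, ← RingHom.map_mul, h.one hS hW, ← map_map, mul_right_comm,
    ← RingHom.map_mul, ih, pow_succ', mul_assoc]

/-- integration along all the slots -/
theorem AvgS.slots (hS : S.IsVar 2) {y : (GA ℂ (B.prod S))⟦X⟧} {z : (GA ℂ B)⟦X⟧} (h : AvgS y z)
    {n : ℕ} (hA : A.IsVar n) (b : Mor A B) (N : ℕ) : ∀ (k : ℕ) (c : (GA ℂ A)⟦X⟧),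
    GH.push (Mor.fst A (S.pow k)) (coeff N (map (GA.pullR ℂ (Mor.fst A (S.pow k))) c *
      ∏ j, map (GA.pullR ℂ (b.map (slot S k j))) y) • fund ℂ (A.prod (S.pow k)) (n + 2 * k)) =
      coeff N (c * map (GA.pullR ℂ b) z ^ k) • fund ℂ A n
  | 0, c => by
    have hp := Nd.var_prod hA (var_pow hS 0)
    have z := Nd.var_pt.ne.some
    rw [Finset.univ_eq_empty, Finset.prod_empty, pow_zero, mul_one, mul_one, coeff_map,
      GA.pullR_apply, GH.push_proj hp.proj hA.proj,
      GH.push_fund_of_inv hp hA.proj _ (Mor.lift (Mor.id A) (Mor.cst A z)) (Mor.fst_lift _ _)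
        (Mor.prod_ext (by rw [Mor.fst_lift_comp]; rfl) (Ct.to_pt_ext _ _))]
    rfl
  | k + 1, c => h.step hS hA b N (var_pow hS k) (slot S k) (slot S (k + 1)) (slot_last k)
      (slot_castSucc k) (AvgS.slots hS h hA b N k) c

end Vale.Agent.P297Z.Ev
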