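import Vale.Agent.P297Z.Ev.Res

/-!
# P297: the three kinds of loci with at most one point
-/

set_option linter.all false

noncomputable section

namespace Vale.Agent.P297Z.Ev

open PowerSeries Gd

variable {B W S : Spc} {om : K0 S}

section tower

variable {L M : K0 S} {v n o : ℕ} (T : Tower S L M v n o)

theorem pull_E0 (f : Mor B (T.X 0)) (s : Mor B S) :
    pullK (f.map (Mor.id S)) (T.E 0) = uE (pullK f (OT T 0)) 0 M s := by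
  rw [T.E0, map_mul, Sh.map_fst, Sh.map_snd, uE, map_zero, zero_mul, sub_zero]
  rfl

theorem pull_O1 (h : 0 < n) (f : Mor B (T.N 0)) : pullK ((T.ρ 0).comp f) (OT T 1) =
    pullK (((Mor.fst _ _).comp (T.π 0)).comp f) (OT T 0) := by
  rw [pullK_comp, pullK_comp, OT, OT, ← pullK_comp (T.p 1), ← pullK_comp (T.p 0),
    pullK_homot (Nd.var_PP v).fr (T.pρ 0 h)]

theorem pull_E1 (h : 0 < n) (f : Mor B (T.N 0)) :
    pullK (((T.ρ 0).comp f).map (Mor.id S)) (T.E 1) =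
      uE (pullK (((Mor.fst _ _).comp (T.π 0)).comp f) (OT T 0)) (pullK f (T.l 0)) M
        (((Mor.snd _ _).comp (T.π 0)).comp f) := by
  rw [← Sh.map_map, T.step 0 h, map_sub, Sh.map_map, pull_E0 T _ (((Mor.snd _ _).comp (T.π 0)).comp f),
    map_mul, Sh.map_fst, Sh.map_map, uE, uE, map_zero, zero_mul, sub_zero]
  rfl

theorem push_eta (hS : S.IsVar 2) (hM : IsCls M 1) (h : 0 < n) (i : ℕ) :
    GH.push (T.π 0) (gc ℂ 1 (T.l 0) ^ i • fund ℂ (T.N 0) (v + 2)) =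
      (GA.pull (Mor.fst _ S) (hT T) + GA.pull (Mor.snd _ S) (gc ℂ 1 M)) ^ i •
        fund ℂ ((T.X 0).prod S) (v + 2) := by
  have h1 := Sh.push_pi (k := ℂ) T hS h i
  have h2 : IsCls (T.E 0) 1 := T.E0 ▸ ((OT_cls T 0).pull _).mul1 (hM.pull _)
  have h3 : gc ℂ 1 (T.E 0) = GA.pull (Mor.fst _ S) (hT T) + GA.pull (Mor.snd _ S) (gc ℂ 1 M) := by
    rw [T.E0, hT, pull_gc, pull_gc]
    exact ((OT_cls T 0).pull _).gc_mul (hM.pull _)
  rw [Sh.xi_eq T h, ← coeff_cA (-T.E 0), cA_neg_line h2, coeff_bin_neg, h3] at h1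
  rcases Nat.even_or_odd i with hi | hi
  · rwa [hi.neg_pow, hi.neg_pow] at h1
  · rwa [hi.neg_pow, hi.neg_pow, neg_smul, neg_smul, map_neg, neg_inj] at h1

end tower

section core

variable {L₁ M₁ L₂ M₂ : K0 S} {v₁ v₂ o₁ o₂ : ℕ} (hS : S.IsVar 2) (hD : Dia S om)
  (hom : IsCls om 1) (hL₁ : IsCls L₁ 1) (hM₁ : IsCls M₁ 1) (hL₂ : IsCls L₂ 1) (hM₂ : IsCls M₂ 1)
  (h₁ : (v₁ + 1 : ℤ) = o₁ + cx M₁ L₁) (h₂ : (v₂ + 1 : ℤ) = o₂ + cx M₂ L₂)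

theorem gc_a {l : K0 B} {x y : K0 S} (hl : IsCls l 1) (hx : IsCls x 1) (hy : IsCls y 1)
    (s : Mor B S) : IsCls (l * dualK B (pullK s (x * y))) 1 ∧
      gc ℂ 1 (l * dualK B (pullK s (x * y))) =
        gc ℂ 1 l - GA.pull s (gc ℂ 1 x) - GA.pull s (gc ℂ 1 y) := by
  have h := (hx.mul1 hy).pull s
  refine ⟨hl.mul1 h.dual, ?_⟩
  rw [hl.gc_mul h.dual, h.gc_dual, ← pull_gc, hx.gc_mul hy, map_add]
  ring

theorem cA_b {l O : K0 B} {x y : K0 S} (hl : IsCls l 1) (hO : IsCls O 1) (hx : IsCls x 1)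
    (hy : IsCls y 1) (s : Mor B S) : cA ℂ (-(l * dualK B (O * pullK s (x * y)))) =
      bin (gc ℂ 1 l - gc ℂ 1 O - GA.pull s (gc ℂ 1 x) - GA.pull s (gc ℂ 1 y)) (-1) := by
  have h := (hx.mul1 hy).pull s
  rw [cA_neg_line (hl.mul1 (hO.mul1 h).dual), hl.gc_mul (hO.mul1 h).dual, (hO.mul1 h).gc_dual,
    hO.gc_mul h, ← pull_gc, hx.gc_mul hy, map_add]
  congr 1
  ring

theorem cA_c {l O : K0 B} {x : K0 S} (hl : IsCls l 1) (hO : IsCls O 1) (hx : IsCls x 1)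
    (s : Mor B S) : cA ℂ (-(O * pullK s x * dualK B l)) =
      bin (gc ℂ 1 O + GA.pull s (gc ℂ 1 x) - gc ℂ 1 l) (-1) := by
  have h := hO.mul1 (hx.pull s)
  rw [cA_neg_line (h.mul1 hl.dual), h.gc_mul hl.dual, hl.gc_dual, hO.gc_mul (hx.pull s), ← pull_gc,
    ← sub_eq_add_neg]

include hS hD hom hL₁ hM₁ hL₂ hM₂ h₁ h₂

theorem core_L {T₁ : Tower S L₁ M₁ v₁ 1 o₁} {T₂ : Tower S L₂ M₂ v₂ 0 o₂} (c : Chart T₁ T₂)
    (hl : IsCls c.l₁ 1) (h0 : c.l₂ = 0) : map (GA.pullR ℂ c.r) (ld ℂ (core T₁ T₂)) =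
      core0 (gc ℂ 1 c.O₁) (gc ℂ 1 c.O₂) o₁ o₂ (cx M₁ L₂) (cx M₂ L₁) (cx M₂ M₁ + cx M₁ M₂) *
      ext4 (gc ℂ 1 c.l₁ - GA.pull c.s (gc ℂ 1 om) - GA.pull c.s (gc ℂ 1 L₁))
        (-(gc ℂ 1 c.l₁ - GA.pull c.s (gc ℂ 1 om) - GA.pull c.s (gc ℂ 1 L₂)))
        (-(gc ℂ 1 c.l₁ - gc ℂ 1 c.O₂ - GA.pull c.s (gc ℂ 1 om) - GA.pull c.s (gc ℂ 1 M₂)))
        (gc ℂ 1 c.O₂ + GA.pull c.s (gc ℂ 1 M₂) - gc ℂ 1 c.l₁) := by
  obtain ⟨a1, a2⟩ := gc_a hl hom hL₁ c.s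
  obtain ⟨a3, a4⟩ := gc_a hl hom hL₂ c.s
  rw [c.core hS hD h₁ h₂, h0]
  simp only [zero_mul, map_zero, mul_zero, neg_zero, add_zero, zero_add]
  rw [gc_top_add (isCls_nsmul c.c₁ _) a1, gc_nsmul c.c₁, gc_nsmul c.c₂, a2, cA_c hl c.c₂ hM₂,
    cA_add, cA_b hl c.c₂ hom hM₂, a3.cA_eq, a4, ← bin_one, RingHom.map_mul (rescale _),
    rescale_bin, rescale_bin, bin_one, core0, ext4]
  simp only [RingHom.map_mul]
  ring

theorem core_R {T₁ : Tower S L₁ M₁ v₁ 0 o₁} {T₂ : Tower S L₂ M₂ v₂ 1 o₂} (c : Chart T₁ T₂)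
    (hl : IsCls c.l₂ 1) (h0 : c.l₁ = 0) : map (GA.pullR ℂ c.r) (ld ℂ (core T₁ T₂)) =
      core0 (gc ℂ 1 c.O₁) (gc ℂ 1 c.O₂) o₁ o₂ (cx M₁ L₂) (cx M₂ L₁) (cx M₂ M₁ + cx M₁ M₂) *
      ext4 (gc ℂ 1 c.l₂ - GA.pull c.s (gc ℂ 1 om) - GA.pull c.s (gc ℂ 1 L₂))
        (gc ℂ 1 c.l₂ - GA.pull c.s (gc ℂ 1 om) - GA.pull c.s (gc ℂ 1 L₁))
        (-(gc ℂ 1 c.O₁ + GA.pull c.s (gc ℂ 1 M₁) - gc ℂ 1 c.l₂))
        (gc ℂ 1 c.l₂ - gc ℂ 1 c.O₁ - GA.pull c.s (gc ℂ 1 om) - GA.pull c.s (gc ℂ 1 M₁)) := by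
  obtain ⟨a1, a2⟩ := gc_a hl hom hL₂ c.s
  obtain ⟨a3, a4⟩ := gc_a hl hom hL₁ c.s
  rw [c.core hS hD h₁ h₂, h0]
  simp only [zero_mul, map_zero, mul_zero, neg_zero, add_zero, zero_add]
  rw [gc_top_add (isCls_nsmul c.c₂ _) a1, gc_nsmul c.c₁, gc_nsmul c.c₂, a2, cA_c hl c.c₁ hM₁,
    cA_add, cA_b hl c.c₁ hom hM₁, a3.cA_eq, a4, rescale_bin, core0, ext4]
  simp only [RingHom.map_mul]
  ring

end core

section zero

variable {L₁ M₁ L₂ M₂ : K0 S} {v₁ v₂ o₁ o₂ : ℕ} (T₁ : Tower S L₁ M₁ v₁ 0 o₁)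
  (T₂ : Tower S L₂ M₂ v₂ 0 o₂)

/-- no point -/
def chart0 (z : S.Pt) : Chart T₁ T₂ where
  B := Fx T₁ T₂
  var := Sh.var_Fx T₁ T₂
  r := Mor.id _
  s := Mor.cst _ z
  O₁ := pullK (Mor.fst _ _) (OT T₁ 0)
  O₂ := pullK (Mor.snd _ _) (OT T₂ 0)
  l₁ := 0
  l₂ := 0
  hO₁ := rfl
  hO₂ := rfl
  hE₁ := pull_E0 T₁ _ _
  hE₂ := pull_E0 T₂ _ _
  h₁₂ := mul_zero _
  h₂₁ := mul_zero _

/-- the model without point -/
def base0 (hS : S.IsVar 2) (hM₁ : IsCls M₁ 1) (hM₂ : IsCls M₂ 1) : Base T₁ T₂ where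
  B := Fx T₁ T₂
  var := Sh.var_Fx T₁ T₂
  r := Mor.id _
  rf := GH.push_id (Sh.var_Fx T₁ T₂).proj _
  h₁ := (alg0 T₁ T₂).h₁
  h₂ := (alg0 T₁ T₂).h₂
  Del := 0
  nu := 0
  mu := 0
  kap := by
    let c := chart0 T₁ T₂ hS.ne.some
    obtain ⟨a1, a2⟩ := gc_uE0 c.c₁ hM₁ c.s
    obtain ⟨a3, a4⟩ := gc_uE0 c.c₂ hM₂ c.s
    refine c.kap.trans ?_
    change Sh.kA ℂ (uE c.O₁ 0 M₁ c.s) (uE c.O₂ 0 M₂ c.s) = _
    rw [Sh.kA, a1, a2, a3, a4, add_zero]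
    simp only [c, chart0, ← pull_gc]
    rfl
  avg x := by rw [zero_mul]; exact Avg.zero
  psh y := by rw [mul_zero, zero_smul, map_zero]; rfl

theorem res_zero (hD0 : D0) (hG : Gen) (hS : S.IsVar 2) (hD : Dia S om) (hM₁ : IsCls M₁ 1)
    (hM₂ : IsCls M₂ 1) {a₁ a₂ : ℕ} (hv₁ : v₁ = o₁ + a₁) (hv₂ : v₂ = o₂ + a₂) (ha : a₁ + a₂ ≤ 1)
    (h₁ : (v₁ + 1 : ℤ) = o₁ + cx M₁ L₁) (h₂ : (v₂ + 1 : ℤ) = o₂ + cx M₂ L₂) (p u v q : ℤ) :
    Res om T₁ T₂ 0 ((-1) ^ (rk _ (bM T₁ T₂)).natAbs * ((-1) ^ (a₁ + a₂) *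
      (Eval.Mi 0 0 a₁ a₂ (cx M₂ M₁ + cx M₁ M₂) (cx M₁ L₂) (cx M₂ L₁) p u v q : ℤ))) := by
  intro ι _ α w t hw ok
  obtain ⟨g1, g2⟩ := hG S hS T₁ T₂ (base0 T₁ T₂ hS hM₁ hM₂) 12 ι α w t hw ok.m₁ ok.m₂
  refine ⟨fun τ z z' h0 => ?_, fun w' t' hw' ok' => ?_⟩
  · have e1 : ∀ y, (base0 T₁ T₂ hS hM₁ hM₂).mu y = 0 := fun _ => rfl
    have e2 : ∀ y, (base0 T₁ T₂ hS hM₁ hM₂).nu y = 0 := fun _ => rfl
    rw [g2 τ z z' h0, e1, e2]
    simp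
  · have hc : map (GA.pullR ℂ (Mor.id _)) (ld ℂ (core T₁ T₂)) = core0 (alg0 T₁ T₂).h₁
        (alg0 T₁ T₂).h₂ o₁ o₂ (cx M₁ L₂) (cx M₂ L₁) (cx M₂ M₁ + cx M₁ M₂) := by
      let c := chart0 T₁ T₂ hS.ne.some
      refine (c.core hS hD h₁ h₂).trans ?_
      simp only [show c.l₁ = 0 from rfl, show c.l₂ = 0 from rfl, zero_mul, map_zero, mul_zero,
        neg_zero, add_zero, cA_zero, map_one, mul_one, gc_nsmul c.c₁, gc_nsmul c.c₂]
      simp only [c, chart0, ← pull_gc]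
      rfl
    have d := congrArg ULift.down (hD0 _ _ _ (alg0 T₁ T₂) o₁ o₂ a₁ a₂ (cx M₁ L₂) (cx M₂ L₁)
      (cx M₂ M₁ + cx M₁ M₂) p u v q t t' hv₁ hv₂ ha)
    rw [← hc] at d
    rw [g1 w' t' hw' ok'.m₁ ok'.m₂]
    refine (congrArg (_ * ·) d).trans ?_
    change _ * (_ * 1) = _
    ring

end zero

section one

variable {L M L' M' : K0 S} {v o v' o' : ℕ} (T : Tower S L M v 1 o) (T' : Tower S L' M' v' 0 o')

/-- the space of a nested pair and a divisor -/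
abbrev N1 : Spc := (T.N 0).prod (T'.X 0)

/-- the map to the space of a point and two divisors -/
def f1 : Mor (N1 T T') (B1 T T') := (T.π 0).map (Mor.id _)

theorem var_N1 : (N1 T T').IsVar (v + 2 + v') := Nd.var_prod (T.varN 0 one_pos) (var0 T')

theorem s1_f1 : (s1 T T').comp (f1 T T') = ((Mor.snd _ _).comp (T.π 0)).comp (Mor.fst _ _) := by
  rw [s1, f1, Mor.comp_assoc, Mor.fst_map]
  rfl

theorem rho_fund : GH.push ((T.ρ 0).map (Mor.id (T'.X 0))) (fund ℂ (N1 T T') (v + 2 + v')) =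
    fund ℂ _ (v + 2 + v') := by
  have hX : (T.X (0 + 1)).IsVar (v + 2 * 0 + 2) := T.var 1 le_rfl
  have h1 := GH.push_map_fund (k := ℂ) (T.varN 0 one_pos) hX (var0 T') (T.ρ 0) 1
  rw [map_one, one_smul, one_smul, Sh.push_rho T Nat.one_pos, T.c0, one_smul] at h1
  exact h1.trans (GH.xf_fund hX (var0 T'))

theorem key1 (hS : S.IsVar 2) (hM : IsCls M 1) (c : GA ℂ (B1 T T')) (i : ℕ) :
    GH.push ((s1 T T').comp (f1 T T')) ((GA.pull (f1 T T') c *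
      gc ℂ 1 (pullK (Mor.fst _ (T'.X 0)) (T.l 0)) ^ i) • fund ℂ (N1 T T') (v + 2 + v')) =
    (alg1 T T' hS).J (c * ((alg1 T T' hS).h₁ + GA.pull (s1 T T') (gc ℂ 1 M)) ^ i) := by
  have hN := var_N1 T T'
  have hB := var_B1 T T' hS
  have hX := Nd.var_prod (var0 T) hS
  change _ = GH.push _ ((c * _) • fund ℂ (B1 T T') (v + 2 + v'))
  rw [GH.push_comp hN.proj hB.proj hS.proj, mul_act, GH.push_proj hN.proj hB.proj, mul_act]
  congr 2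
  rw [← pull_gc, ← map_pow, f1, GH.push_map_fund (n := v + 2) (T.varN 0 one_pos) hX (var0 T'),
    push_eta T hS hM one_pos, GH.xf_smul hX (var0 T'), GH.xf_fund hX (var0 T'), map_pow, map_add]
  rfl

variable (hS : S.IsVar 2) (hD : Dia S om) (hom : IsCls om 1) (hL : IsCls L 1) (hM : IsCls M 1)
  (hL' : IsCls L' 1) (hM' : IsCls M' 1) {a a' : ℕ} (hv : v = o + a) (hv' : v' = o' + a')
  (h : (v + 1 : ℤ) = o + cx M L) (h' : (v' + 1 : ℤ) = o' + cx M' L')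

/-- the point on the first factor -/
def chartL : Chart T T' where
  B := N1 T T'
  var := var_N1 T T'
  r := (T.ρ 0).map (Mor.id _)
  s := (s1 T T').comp (f1 T T')
  O₁ := pullK (((Mor.fst _ _).comp (T.π 0)).comp (Mor.fst _ _)) (OT T 0)
  O₂ := pullK (Mor.snd _ _) (OT T' 0)
  l₁ := pullK (Mor.fst _ _) (T.l 0)
  l₂ := 0
  hO₁ := (congrArg (pullK · _) (Mor.fst_map _ _)).trans (pull_O1 T one_pos _)
  hO₂ := congrArg (pullK · _) (Mor.snd_map _ _)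
  hE₁ := by
    rw [s1_f1]
    exact (congrArg (fun f => pullK (Mor.map f _) _) (Mor.fst_map _ _)).trans (pull_E1 T one_pos _)
  hE₂ := (congrArg (fun f => pullK (Mor.map f _) _) (Mor.snd_map _ _)).trans (pull_E0 T' _ _)
  h₁₂ := mul_zero _
  h₂₁ := by rw [map_zero, zero_mul]

/-- the point on the second factor -/
def chartR : Chart T' T where
  B := N1 T T'
  var := (var_N1 T T').cast (add_comm _ _)
  r := (Mor.swap _ _).comp ((T.ρ 0).map (Mor.id _))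
  s := (s1 T T').comp (f1 T T')
  O₁ := pullK (Mor.snd _ _) (OT T' 0)
  O₂ := pullK (((Mor.fst _ _).comp (T.π 0)).comp (Mor.fst _ _)) (OT T 0)
  l₁ := 0
  l₂ := pullK (Mor.fst _ _) (T.l 0)
  hO₁ := congrArg (pullK · _) ((Mor.fst_lift_comp _ _ _).trans (Mor.snd_map _ _))
  hO₂ := (congrArg (pullK · _) ((Mor.snd_lift_comp _ _ _).trans (Mor.fst_map _ _))).trans
    (pull_O1 T one_pos _)
  hE₁ := (congrArg (fun f => pullK (Mor.map f _) _)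
    ((Mor.fst_lift_comp _ _ _).trans (Mor.snd_map _ _))).trans (pull_E0 T' _ _)
  hE₂ := by
    rw [s1_f1]
    exact (congrArg (fun f => pullK (Mor.map f _) _)
      ((Mor.snd_lift_comp _ _ _).trans (Mor.fst_map _ _))).trans (pull_E1 T one_pos _)
  h₁₂ := by rw [map_zero, zero_mul]
  h₂₁ := mul_zero _

theorem gc_OA : gc ℂ 1 (pullK (((Mor.fst _ _).comp (T.π 0)).comp (Mor.fst _ (T'.X 0))) (OT T 0)) =
    GA.pull (f1 T T') (alg1 T T' hS).h₁ := by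
  change _ = GA.pull (((Mor.fst _ _).comp (Mor.fst _ _)).comp (f1 T T')) (hT T)
  rw [← pull_gc, f1, Mor.comp_assoc (Mor.fst _ _) (Mor.fst _ _), Mor.fst_map]
  rfl

theorem gc_OB : gc ℂ 1 (pullK (Mor.snd (T.N 0) _) (OT T' 0)) =
    GA.pull (f1 T T') (alg1 T T' hS).h₂ := by
  change _ = GA.pull ((Mor.snd _ _).comp (f1 T T')) (hT T')
  rw [← pull_gc, f1, Mor.snd_map]
  rfl

include hS hD hom hL hM hL' hM' hv hv' h h'

theorem res_L (hD1 : D1) (hG : Gen) (ha : a + a' ≤ 1) {p u w q : ℤ}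
    (hp : pr (xg true om L M L' M' 0) (xg true om L M L' M' 1) = p)
    (hu : pr (xg true om L M L' M' 0) (xg true om L M L' M' 2 - xg true om L M L' M' 3) = u)
    (hw : pr (xg true om L M L' M' 1) (xg true om L M L' M' 2 - xg true om L M L' M' 3) = w)
    (hq : -pr (xg true om L M L' M' 2) (xg true om L M L' M' 2) +
      pr (xg true om L M L' M' 2) (xg true om L M L' M' 3) -
      pr (xg true om L M L' M' 3) (xg true om L M L' M' 3) = q) :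
    ∃ N, Res om T T' N ((-1) ^ (rk _ (bM T T')).natAbs * (- -1 * (-1) ^ (a + a') *
      (Eval.Mi 1 0 a a' (cx M' M + cx M M') (cx M L') (cx M' L) p u w q : ℤ))) := by
  let c := chartL T T'
  have hl : IsCls c.l₁ 1 := (T.lcls 0 one_pos).pull _
  obtain ⟨a1, a2⟩ := gc_uE1 hD c.c₁ hl hM c.s
  obtain ⟨a3, a4⟩ := gc_uE0 c.c₂ hM' c.s
  have g1 : gc ℂ 1 c.O₁ = _ := gc_OA T T' hS
  have g2 : gc ℂ 1 c.O₂ = _ := gc_OB T T' hS
  refine res_one hD1 hG hS (c.base hS hD (rho_fund T T') a1 a3 ((congrArg₂ _ a2 a4).trans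
    (add_zero _))) (alg1 T T' hS) (f1 T T') true rfl hv hv' ha (by change _ = v + v' + 2; omega)
    g1 g2 (fun _ => rfl) (c.base_mu hS hD) (fun _ => (GH.deg_push c.var.proj hS.proj c.s _).symm)
    (fun F m => ?_) hp hu hw hq
  have k := core_L hS hD hom hL hM hL' hM' h h' c hl rfl
  rw [g1, g2] at k
  refine (congrArg (fun x : (GA ℂ (N1 T T'))⟦X⟧ => GH.push ((s1 T T').comp (f1 T T'))
    (coeff m (x * map (GA.pullR ℂ (f1 T T')) F) • fund ℂ (N1 T T') (v + 2 + v'))) k).trans ?_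
  exact subst_L (GA.pullR ℂ (f1 T T')) (GA.pull (s1 T T')) _ _ _ _ _ _ _ _
    (GH.push ((s1 T T').comp (f1 T T')) ∘ₗ Sh.cap ℂ (fund ℂ _ (v + 2 + v'))).toAddMonoidHom
    (alg1 T T' hS).J.toAddMonoidHom _ _ _ _ _ F m (key1 T T' hS hM)

theorem res_R (hD1 : D1) (hG : Gen) (ha : a' + a ≤ 1) {p u w q : ℤ}
    (hp : pr (xg false om L' M' L M 0) (xg false om L' M' L M 1) = p)
    (hu : pr (xg false om L' M' L M 0) (xg false om L' M' L M 2 - xg false om L' M' L M 3) = u)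
    (hw : pr (xg false om L' M' L M 1) (xg false om L' M' L M 2 - xg false om L' M' L M 3) = w)
    (hq : -pr (xg false om L' M' L M 2) (xg false om L' M' L M 2) +
      pr (xg false om L' M' L M 2) (xg false om L' M' L M 3) -
      pr (xg false om L' M' L M 3) (xg false om L' M' L M 3) = q) :
    ∃ N, Res om T' T N ((-1) ^ (rk _ (bM T' T)).natAbs * (-1 * (-1) ^ (a' + a) *
      (Eval.Mi 0 1 a' a (cx M M' + cx M' M) (cx M' L) (cx M L') p u w q : ℤ))) := by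
  let c := chartR T T'
  have hl : IsCls c.l₂ 1 := (T.lcls 0 one_pos).pull _
  obtain ⟨a1, a2⟩ := gc_uE0 c.c₁ hM' c.s
  obtain ⟨a3, a4⟩ := gc_uE1 hD c.c₂ hl hM c.s
  have g1 : gc ℂ 1 c.O₁ = _ := gc_OB T T' hS
  have g2 : gc ℂ 1 c.O₂ = _ := gc_OA T T' hS
  have e : v' + 2 * 0 + (v + 2 * 1) = v + 2 + v' := by omega
  have hX : (T.X 1).IsVar (v + 2) := T.var 1 le_rfl
  have rf : GH.push c.r (fund ℂ c.B (v' + 2 * 0 + (v + 2 * 1))) =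
      fund ℂ _ (v' + 2 * 0 + (v + 2 * 1)) := by
    refine ((congrArg (fun n => GH.push c.r (fund ℂ c.B n)) e).trans (GH.push_comp c.var.proj
      (Nd.var_prod hX (var0 T')).proj (Sh.var_Fx T' T).proj _ _ _)).trans ?_
    exact (congrArg _ (rho_fund T T')).trans (GH.push_swap_fund hX (var0 T'))
  refine res_one hD1 hG hS (c.base hS hD rf a1 a3 ((congrArg₂ _ a2 a4).trans
    (zero_add _))) (alg1 T T' hS).swap (f1 T T') false rfl hv' hv ha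
    (by change _ = v' + v + 2; omega)
    g1 g2 (fun _ => rfl) (c.base_mu hS hD) (fun _ => (GH.deg_push c.var.proj hS.proj c.s _).symm)
    (fun F m => ?_) hp hu hw hq
  have k := core_R hS hD hom hL' hM' hL hM h' h c hl rfl
  rw [g1, g2] at k
  refine (congrArg₂ (fun (x : (GA ℂ (N1 T T'))⟦X⟧) n => GH.push ((s1 T T').comp (f1 T T'))
    (coeff m (x * map (GA.pullR ℂ (f1 T T')) F) • fund ℂ (N1 T T') n)) k e).trans ?_
  exact subst_R (GA.pullR ℂ (f1 T T')) (GA.pull (s1 T T')) _ _ _ _ _ _ _ _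
    (GH.push ((s1 T T').comp (f1 T T')) ∘ₗ Sh.cap ℂ (fund ℂ _ (v + 2 + v'))).toAddMonoidHom
    (alg1 T T' hS).J.toAddMonoidHom _ _ _ _ _ F m (key1 T T' hS hM)

end one

end Vale.Agent.P297Z.Ev
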