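import Vale.Agent.P297Z.Ev.PP
import Vale.Agent.P297Z.Sh.Gam

/-!
# P297: the universal classes on a model of the fixed locus
-/

set_option linter.all false

noncomputable section

namespace Vale.Agent.P297Z.Ev

open PowerSeries Gd

variable {B W S : Spc} {om : K0 S} {n : ℕ}

/-- the Euler characteristic of `Hom (M, L)` -/
def cx (M L : K0 S) : ℤ := chiG S (kact S (dualK S M * L) (oG S))

/-- the universal class with at most one point -/
def uE (O l : K0 B) (M : K0 S) (s : Mor B S) : K0 (B.prod S) :=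
  pullK (Mor.fst B S) O * pullK (Mor.snd B S) M - pullK (Mor.fst B S) l * ds s

theorem pull_ds (f : Mor W B) (s : Mor B S) :
    pullK (f.map (Mor.id S)) (ds s) = ds (s.comp f) := Sh.map_dS f s

theorem pull_uE (f : Mor W B) (O l : K0 B) (M : K0 S) (s : Mor B S) :
    pullK (f.map (Mor.id S)) (uE O l M s) = uE (pullK f O) (pullK f l) M (s.comp f) := by
  rw [uE, map_sub, map_mul, map_mul, Sh.map_fst, Sh.map_fst, Sh.map_snd, pull_ds, uE]

section K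

variable (hB : B.IsVar n) (hS : S.IsVar 2) (hD : Dia S om) (s : Mor B S)
include hB hS hD

theorem pK_uE (O' l' O : K0 B) (M' M : K0 S) :
    pK B S (dualK _ (uE O' l' M' s) * (pullK (Mor.fst B S) O * pullK (Mor.snd B S) M)) =
      O * (cx M' M • dualK B O' - dualK B l' * pullK s (om * M)) := by
  have e : dualK _ (uE O' l' M' s) * (pullK (Mor.fst B S) O * pullK (Mor.snd B S) M) =
      pullK (Mor.fst B S) (O * dualK B O') * pullK (Mor.snd B S) (dualK S M' * M) -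
      pullK (Mor.fst B S) (O * dualK B l') * (dualK _ (ds s) * pullK (Mor.snd B S) M) := by
    simp only [uE, map_sub, map_mul, pullK_dualK]
    ring
  rw [e, map_sub, Nd.pK_mul hB hS.proj, Nd.pK_mul hB hS.proj, Nd.pK_snd hB hS.proj,
    hD.d2 B n hB, show pullK (gr s) (pullK (Mor.snd B S) M) = pullK s M from Sh.gr_snd s M,
    RingHom.map_mul, zsmul_eq_mul, cx]
  ring

theorem pK_ds (O' l' l : K0 B) (M' : K0 S) (h : dualK B l' * l = 0) :
    pK B S (dualK _ (uE O' l' M' s) * (pullK (Mor.fst B S) l * ds s)) =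
      dualK B O' * l * pullK s (dualK S M') := by
  have e : dualK _ (uE O' l' M' s) * (pullK (Mor.fst B S) l * ds s) =
      pullK (Mor.fst B S) (dualK B O' * l) * (ds s * pullK (Mor.snd B S) (dualK S M')) -
      pullK (Mor.fst B S) (dualK B l' * l) * (dualK _ (ds s) * ds s) := by
    simp only [uE, map_sub, map_mul, pullK_dualK]
    ring
  rw [e, h, map_zero, zero_mul, sub_zero, Nd.pK_mul hB hS.proj, hD.d1 B n hB]
  exact congrArg _ (Sh.gr_snd s _)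

theorem cross_eq (O' l' O l : K0 B) (M' M L : K0 S) (h : dualK B l' * l = 0) :
    -dualK B (pK B S (dualK _ (uE O' l' M' s) * (pullK (Mor.snd B S) L - uE O l M s))) =
      (-cx M' L) • O' + cx M' M • (O' * dualK B O) + (l' * dualK B (pullK s (om * L)) +
        -(l' * dualK B (O * pullK s (om * M))) + -(O' * pullK s M' * dualK B l)) := by
  have e : dualK _ (uE O' l' M' s) * (pullK (Mor.snd B S) L - uE O l M s) =
      dualK _ (uE O' l' M' s) * (pullK (Mor.fst B S) 1 * pullK (Mor.snd B S) L) -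
      dualK _ (uE O' l' M' s) * (pullK (Mor.fst B S) O * pullK (Mor.snd B S) M) +
      dualK _ (uE O' l' M' s) * (pullK (Mor.fst B S) l * ds s) := by
    rw [map_one, uE.eq_1 O]
    ring
  rw [e, map_add, map_sub, pK_uE hB hS hD, pK_uE hB hS hD, pK_ds hB hS hD s O' l' l M' h,
    pullK_dualK]
  simp only [map_add, map_sub, map_mul, map_zsmul, map_one, dualK_dualK, zsmul_eq_mul,
    Int.cast_neg, map_intCast]
  ring

theorem obv_eq (O l : K0 B) (M L : K0 S) {v o : ℕ} (h : (v + 1 : ℤ) = o + cx M L) :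
    (v + 1 : ℕ) • O - dualK B (pK B S (pullK (Mor.snd B S) L * dualK _ (uE O l M s))) =
      o • O + l * dualK B (pullK s (om * L)) := by
  have := pK_uE hB hS hD s O l 1 M L
  rw [map_one, one_mul, one_mul, mul_comm] at this
  have h' : ((v + 1 : ℕ) : K0 B) = o + (cx M L : ℤ) := by exact_mod_cast congrArg Int.cast h
  rw [this]
  simp only [map_sub, map_mul, dualK_dualK, zsmul_eq_mul, nsmul_eq_mul, map_intCast, h']
  ring

end K

/-! ### the Chern classes of the universal class -/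

theorem gc_ds_one (hD : Dia S om) (s : Mor B S) : gc ℂ 1 (ds s) = 0 := by
  rw [ds, ← pull_gc, hD.c1, map_zero]

theorem rk_ds (hD : Dia S om) (s : Mor B S) : rk _ (ds s) = 0 := by rw [ds, rk_pullK, hD.rk0]

theorem gc_tw {l a : K0 W} (hl : IsCls l 1) (h0 : rk W a = 0) (h1 : gc ℂ 1 a = 0) :
    gc ℂ 1 (l * a) = 0 ∧ gc ℂ 2 (l * a) = gc ℂ 2 a := by
  have e : Ring.choose (0 : ℤ) 2 = 0 := Ring.choose_zero_succ ℤ 1
  constructor <;> rw [gc_twist hl, h0] <;> simp [Finset.sum_range_succ, h1, e]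

theorem gc_sub {l a : K0 W} (hl : IsCls l 1) (h1 : gc ℂ 1 a = 0) :
    gc ℂ 1 (l - a) = gc ℂ 1 l ∧ gc ℂ 2 (l - a) = -gc ℂ 2 a := by
  have e1 := gc_one_add (k := ℂ) (l - a) a
  have e2 := gc_add (k := ℂ) 2 (l - a) a
  rw [sub_add_cancel] at e1 e2
  rw [hl.gc_eq_zero one_lt_two] at e2
  simp [Finset.Nat.antidiagonal_succ, h1, gc_zero] at e2
  exact ⟨by rw [e1, h1, add_zero], by linear_combination -e2⟩

theorem gc_uE0 {O : K0 B} {M : K0 S} (hO : IsCls O 1) (hM : IsCls M 1) (s : Mor B S) :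
    gc ℂ 1 (uE O 0 M s) =
      GA.pull (Mor.fst B S) (gc ℂ 1 O) + GA.pull (Mor.snd B S) (gc ℂ 1 M) ∧
    gc ℂ 2 (uE O 0 M s) = 0 := by
  rw [uE, map_zero, zero_mul, sub_zero, (hO.pull _).gc_mul (hM.pull _), pull_gc, pull_gc]
  exact ⟨rfl, ((hO.pull _).mul1 (hM.pull _)).gc_eq_zero one_lt_two⟩

theorem gc_uE1 (hD : Dia S om) {O l : K0 B} {M : K0 S} (hO : IsCls O 1) (hl : IsCls l 1)
    (hM : IsCls M 1) (s : Mor B S) :
    gc ℂ 1 (uE O l M s) =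
      GA.pull (Mor.fst B S) (gc ℂ 1 O) + GA.pull (Mor.snd B S) (gc ℂ 1 M) ∧
    gc ℂ 2 (uE O l M s) = -gc ℂ 2 (ds s) := by
  obtain ⟨a1, a2⟩ := gc_tw (hl.pull (Mor.fst B S)) (rk_ds hD s) (gc_ds_one hD s)
  obtain ⟨a3, a4⟩ := gc_sub ((hO.pull (Mor.fst B S)).mul1 (hM.pull (Mor.snd B S))) a1
  rw [uE, a3, a4, a2, (hO.pull _).gc_mul (hM.pull _), pull_gc, pull_gc]
  exact ⟨rfl, rfl⟩

/-! ### series -/

theorem rescale_bin {A : Type*} [CommRing A] (u : A) (r : ℤ) :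
    rescale (-1) (bin u r) = bin (-u) r := by
  rw [bin, bin, rescale_rescale, mul_neg_one]

theorem map_bin {A A' : Type*} [CommRing A] [CommRing A'] (φ : A →+* A') (u : A) (r : ℤ) :
    map φ (bin u r) = bin (φ u) r := by
  ext i
  rw [coeff_map, coeff_bin, coeff_bin, map_zsmul, map_pow]

theorem map_rescale (f : Mor W B) (s : (GA ℂ B)⟦X⟧) :
    map (GA.pullR ℂ f) (rescale (-1) s) = rescale (-1) (map (GA.pullR ℂ f) s) := by
  ext i
  simp only [coeff_map, coeff_rescale, map_mul, map_pow, map_neg, map_one]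

theorem cA_two {O O' : K0 B} (h : IsCls O 1) (h' : IsCls O' 1) (a b : ℤ) (x : K0 B) :
    cA ℂ (a • O' + b • (O' * dualK B O) + x) =
      bin (gc ℂ 1 O') a * bin (gc ℂ 1 O' - gc ℂ 1 O) b * cA ℂ x := by
  rw [cA_add, cA_add, cA_zsmul h', cA_zsmul (h'.mul1 h.dual), h'.gc_mul h.dual, h.gc_dual,
    ← sub_eq_add_neg]

section chart

variable {L₁ M₁ L₂ M₂ : K0 S} {v₁ v₂ n₁ n₂ o₁ o₂ : ℕ}
  (T₁ : Tower S L₁ M₁ v₁ n₁ o₁) (T₂ : Tower S L₂ M₂ v₂ n₂ o₂)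

/-- a space over the fixed locus on which the universal classes are explicit -/
structure Chart where
  B : Spc
  var : B.IsVar (v₁ + 2 * n₁ + (v₂ + 2 * n₂))
  r : Mor B (Fx T₁ T₂)
  s : Mor B S
  O₁ : K0 B
  O₂ : K0 B
  l₁ : K0 B
  l₂ : K0 B
  hO₁ : pullK ((Mor.fst _ _).comp r) (OT T₁ n₁) = O₁
  hO₂ : pullK ((Mor.snd _ _).comp r) (OT T₂ n₂) = O₂
  hE₁ : pullK (((Mor.fst _ _).comp r).map (Mor.id S)) (T₁.E n₁) = uE O₁ l₁ M₁ s
  hE₂ : pullK (((Mor.snd _ _).comp r).map (Mor.id S)) (T₂.E n₂) = uE O₂ l₂ M₂ s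
  h₁₂ : dualK B l₁ * l₂ = 0
  h₂₁ : dualK B l₂ * l₁ = 0

variable {T₁ T₂} (c : Chart T₁ T₂)

theorem Chart.c₁ : IsCls c.O₁ 1 := c.hO₁ ▸ (OT_cls T₁ n₁).pull _

theorem Chart.c₂ : IsCls c.O₂ 1 := c.hO₂ ▸ (OT_cls T₂ n₂).pull _

theorem Chart.E₁ : pullK (c.r.map (Mor.id S)) (E1 T₁ T₂) = uE c.O₁ c.l₁ M₁ c.s := by
  rw [E1, Sh.map_map, c.hE₁]

theorem Chart.E₂ : pullK (c.r.map (Mor.id S)) (E2 T₁ T₂) = uE c.O₂ c.l₂ M₂ c.s := by
  rw [E2, Sh.map_map, c.hE₂]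

theorem Chart.kap : map (GA.pullR ℂ (c.r.map (Mor.id S))) (ld ℂ (kappa (E1 T₁ T₂) (E2 T₁ T₂))) =
    Sh.kA ℂ (uE c.O₁ c.l₁ M₁ c.s) (uE c.O₂ c.l₂ M₂ c.s) := by
  rw [← ld_map (Sh.adm_kappa _ _), Gl.map_kappa, Sh.ld_kappa, c.E₁, c.E₂]

theorem pull_obv {L M : K0 S} {v n₀ o : ℕ} (T : Tower S L M v n₀ o) (hB : B.IsVar n)
    (hS : S.IsVar 2) (hD : Dia S om) (f : Mor B (T.X n₀)) {l : K0 B} {s : Mor B S}
    (hE : pullK (f.map (Mor.id S)) (T.E n₀) = uE (pullK f (OT T n₀)) l M s)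
    (h : (v + 1 : ℤ) = o + cx M L) :
    pullK f (T.obv n₀) = o • pullK f (OT T n₀) + l * dualK B (pullK s (om * L)) := by
  rw [Tower.obv, map_sub, map_nsmul, pullK_dualK, Nd.pK_pull hB (T.var n₀ le_rfl) hS.proj, map_mul,
    pullK_dualK, Sh.map_snd, hE]
  exact obv_eq hB hS hD s _ l M L h

theorem Chart.core (hS : S.IsVar 2) (hD : Dia S om) (h₁ : (v₁ + 1 : ℤ) = o₁ + cx M₁ L₁)
    (h₂ : (v₂ + 1 : ℤ) = o₂ + cx M₂ L₂) :
    map (GA.pullR ℂ c.r) (ld ℂ (core T₁ T₂)) =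
      C (gc ℂ (o₁ + n₁) (o₁ • c.O₁ + c.l₁ * dualK _ (pullK c.s (om * L₁))) *
        gc ℂ (o₂ + n₂) (o₂ • c.O₂ + c.l₂ * dualK _ (pullK c.s (om * L₂)))) *
      X ^ (o₁ + n₁ + (o₂ + n₂)) * (bin (gc ℂ 1 c.O₂) (-cx M₂ L₁) * bin (-gc ℂ 1 c.O₁) (-cx M₁ L₂) *
        bin (gc ℂ 1 c.O₂ - gc ℂ 1 c.O₁) (cx M₂ M₁ + cx M₁ M₂)) *
      (cA ℂ (c.l₂ * dualK _ (pullK c.s (om * L₁)) + -(c.l₂ * dualK _ (c.O₁ * pullK c.s (om * M₁))) +
        -(c.O₂ * pullK c.s M₂ * dualK _ c.l₁)) *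
      rescale (-1) (cA ℂ (c.l₁ * dualK _ (pullK c.s (om * L₂)) +
        -(c.l₁ * dualK _ (c.O₂ * pullK c.s (om * M₂))) + -(c.O₁ * pullK c.s M₁ * dualK _ c.l₂)))) := by
  have hF := Sh.var_Fx T₁ T₂
  have a1 := pull_obv T₁ c.var hS hD _ (c.hO₁ ▸ c.hE₁) h₁
  have a2 := pull_obv T₂ c.var hS hD _ (c.hO₂ ▸ c.hE₂) h₂
  rw [c.hO₁] at a1
  rw [c.hO₂] at a2
  have a3 := (show pullK c.r (bP T₁ T₂) = _ by
    rw [bP, map_neg, pullK_dualK, Nd.pK_pull c.var hF hS.proj, map_mul, map_sub, pullK_dualK,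
      Sh.map_snd, c.E₁, c.E₂]).trans (cross_eq c.var hS hD c.s c.O₂ _ c.O₁ _ M₂ M₁ L₁ c.h₂₁)
  have a4 := (show pullK c.r (bM T₁ T₂) = _ by
    rw [bM, map_neg, pullK_dualK, Nd.pK_pull c.var hF hS.proj, map_mul, map_sub, pullK_dualK,
      Sh.map_snd, c.E₁, c.E₂]).trans (cross_eq c.var hS hD c.s c.O₁ _ c.O₂ _ M₁ M₂ L₂ c.h₁₂)
  rw [Sh.ld_core, Sh.coreA, RingHom.map_mul, RingHom.map_mul, RingHom.map_mul, map_C, map_pow,
    map_X, map_rescale, map_cA, map_cA, a3, a4, GA.pullR_apply, Sh.topA, map_mul, ← GA.pull_comp,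
    ← GA.pull_comp, pull_gc, pull_gc, a1, a2, cA_two c.c₁ c.c₂, cA_two c.c₂ c.c₁,
    RingHom.map_mul (rescale _), RingHom.map_mul (rescale _), rescale_bin, rescale_bin, bin_add,
    neg_sub]
  ring

end chart

end Vale.Agent.P297Z.Ev
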