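import Vale.Agent.P297Z.Ev.Case
import Vale.Agent.P297Z.Top.Glue3
import Vale.Agent.P297Z.Top.Stage

/-!
# P297: the loci with at most one point on the surface
-/

set_option linter.all false

noncomputable section

namespace Vale.Agent.P297Z.Ev

open PowerSeries Gd Sf

theorem pr_comm {S : Spc} (x y : GA ℂ S) : pr x y = pr y x := by rw [pr, mul_comm]; rfl

theorem pr_fsum {S : Spc} {ι : Type} [Fintype ι] (a : ι → ℂ) (x : ι → GA ℂ S) (y : GA ℂ S) :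
    pr (∑ i, a i • x i) y = ∑ i, a i * pr (x i) y := by
  rw [pr, Finset.sum_mul, Finset.sum_smul, map_sum]
  exact Finset.sum_congr rfl fun i _ => by rw [smul_mul_assoc, smul_assoc, map_smul]; rfl

theorem Dia.drk {S : Spc} {om : K0 S} (hD : Dia S om) (h : rk S om = 1) : Gl.DRk S := by
  intro W e hW s b x
  cases b
  · exact (congrArg _ (hD.d1 W e hW s x)).trans (rk_pullK _ _)
  · refine (congrArg _ (hD.d2 W e hW s x)).trans ?_
    rw [map_mul, rk_pullK, rk_pullK, h, one_mul]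

theorem sign_eq (m e : ℤ) (k : ℕ) (h : Even (m + k - e)) :
    (-1 : ℂ) ^ m.natAbs * (-1) ^ k = ((e.negOnePow : ℤˣ) : ℤ) := by
  rw [← (Int.negOnePow_eq_iff _ _).2 h, Int.negOnePow_add, Units.val_mul, Int.cast_mul,
    Int.coe_negOnePow, Int.cast_negOnePow_natCast]

variable {K : Type} [Field K] [Algebra ℂ K] {S : Surf K} (h : S.All)

theorem lK_cls (D : Sf.Div S.W) : IsCls (S.lK h D) 1 := IsCls.of_bun (Sl.lb_isBun S h D)

/-- the class of a divisor -/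
def dv : Sf.Div S.W →+ GA ℂ (S.spc h) := AddMonoidHom.mk' (fun D => -gc ℂ 1 (S.lK h D)) fun A B => by
  rw [Sl.lK_add, (lK_cls h A).gc_mul (lK_cls h B), neg_add]

theorem gc_lK (D : Sf.Div S.W) : gc ℂ 1 (S.lK h D) = -dv h D := (neg_neg _).symm

theorem amk_lK (D : Sf.Div S.W) : amk ℂ 1 (S.lK h D - 1) = dv h D := by
  rw [← neg_sub, amk_neg (lK_cls h D).sub_mem, ← (lK_cls h D).gc_one]; rfl

theorem rk_lK (D : Sf.Div S.W) : rk _ (S.lK h D - 1) = 0 := by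
  rw [map_sub, Sl.rk_lK, map_one, sub_self]

theorem pr_dv (A B : Sf.Div S.W) : pr (dv h A) (dv h B) = inter A B := by
  have a := mem_FF_one (rk_lK h A)
  have b := mem_FF_one (rk_lK h B)
  rw [pr, ← amk_lK, ← amk_lK, ← amk_mul a b, GH.deg_amk_fund (SA.isVar h) (Gd.FF_mul a b),
    if_pos rfl, Sl.chiG_inter]

theorem ok_of {lam D₁ D₂ : Sf.Div S.W} {al w : GA ℂ (S.spc h)} (h1 : pr w (dv h S.kap) = 0)
    (h2 : pr w (dv h lam) = 0) (h3 : pr w (dv h (D₁ + D₂)) = 0) (h4 : pr w al = 0) :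
    Ok (S.lK h (-S.kap)) (S.lK h lam) (S.lK h (lam - D₁)) (S.lK h 0) (S.lK h (0 - D₂)) al w
      (pr w (dv h D₁)) := by
  have h0 : pr w 0 = 0 := by rw [pr, mul_zero, zero_smul, map_zero]
  refine ⟨?_, ?_, ?_, ?_, ?_, h4⟩
  · rw [gc_lK, map_sub, neg_sub, pr_sub, h2, sub_zero]
  · rw [gc_lK, ← map_neg, show -(0 - D₂) = D₁ + D₂ - D₁ by abel, map_sub, pr_sub, h3, zero_sub]
  · rw [gc_lK, map_neg, neg_neg, h1]
  · rw [gc_lK, ← zero_sub, pr_sub, h0, h2, sub_zero]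
  · rw [gc_lK, map_zero, neg_zero, h0]

theorem fn0_pt {U : Type} [AddCommGroup U] [Module ℂ U] (φ : G (S.spc h) →+ U)
    {z z' : (S.spc h).Pt} {g g' : G (S.spc h)} (hz : kact _ (dK _ z) (oG _) = g)
    (hz' : kact _ (dK _ z') (oG _) = g') :
    GH.fn0 φ (amk ℂ 2 (dK _ z - dK _ z') • fund ℂ (S.spc h) 2) = φ g - φ g' := by
  have hS := SA.isVar h
  rw [amk_fund hS (Sh.dK_mem z z'), if_pos le_rfl,
    GH.fn0_hmk hS.fr _ (act_oG_mem hS (Sh.dK_mem z z') le_rfl), if_pos rfl, map_sub,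
    AddMonoidHom.sub_apply, hz, hz', map_sub]

theorem shape_of (hp : ∀ p z, S.Over h z p → kact _ (dK _ z) (oG _) = S.ptG h p)
    {lam D₁ D₂ : Sf.Div S.W} {n₁ n₂ : ℕ} {T₁ : S.Tw h lam D₁ n₁} {T₂ : S.Tw h 0 D₂ n₂} {N M : ℂ}
    (H : Res (S.lK h (-S.kap)) T₁ T₂ N M) : S.Shape h T₁ T₂ 12 N M := by
  intro ι _ a u h1 h2 h3 h4
  have e : ∀ D, pr (∑ i, a i • amk ℂ 1 (S.lK h (u i) - 1)) (dv h D) =
      ∑ i, a i * inter (u i) D := fun D => by simp only [pr_fsum, amk_lK, pr_dv]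
  obtain ⟨r1, r2⟩ := H ι a (fun i => S.lK h (u i) - 1) _ (fun i => rk_lK h _)
    (ok_of h ((e _).trans h2) ((e _).trans h3) ((e _).trans h4) (by
      rw [pr_fsum, ← h1]
      refine Finset.sum_congr rfl fun i _ => ?_
      rw [pr_comm, amk_lK, e, Finset.mul_sum]
      exact Finset.sum_congr rfl fun j _ => by rw [inter_comm (u j), mul_assoc]))
  rw [e] at r1 r2
  refine ⟨fun τ p q z z' hz hz' => ?_, fun u' a1 a2 a3 a4 => ?_⟩
  · rw [r1 τ z z', fn0_pt h τ (hp p z hz) (hp q z' hz')]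
    refine (fn0_pt h _ (hp p z hz) (hp q z' hz')).trans ?_
    change ((chiG _ _ : ℤ) : ℂ) - ((chiG _ _ : ℤ) : ℂ) = 0
    rw [Sl.chiG_ptG, Sl.chiG_ptG, sub_self]
  · have := r2 _ _ (rk_lK h u') (ok_of h (D₁ := D₁) (D₂ := D₂)
      (by rw [amk_lK, pr_dv, a1, Int.cast_zero]) (by rw [amk_lK, pr_dv, a2, Int.cast_zero])
      (by rw [amk_lK, pr_dv, a3, Int.cast_zero]) (by rw [pr_comm, amk_lK h u', e, a4]))
    rwa [amk_lK, pr_dv, pr_dv] at this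

theorem xg_eq (lam D₁ D₂ : Sf.Div S.W) (b : Bool) (i : Fin 4) :
    xg b (S.lK h (-S.kap)) (S.lK h lam) (S.lK h (lam - D₁)) (S.lK h 0) (S.lK h (0 - D₂)) i =
      dv h (Eval.xc S.kap lam D₁ D₂ (cond b 1 0) i) := by
  cases b <;> fin_cases i <;> simp [xg, Eval.xc, gc_lK] <;> ring

theorem ev_of (hD0 : D0) (hD1 : D1) (hGen : Gen) (hDia : DIA) : Sf.EV := by
  intro K _ _ S h hG lam β c hvd
  refine ⟨1, one_ne_zero, fun D₁ D₂ n₁ n₂ T₁ T₂ hl hn c₁ c₂ c₃ => ?_⟩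
  obtain ⟨hD, hp⟩ := hDia K S h
  have hS := SA.isVar h
  have cx_eq : ∀ A B, cx (S.lK h A) (S.lK h B) = chi (B - A) := chiG_hom h
  have b₁ := chi_le_h0 h hG hl.eff₁
  have b₂ := chi_le_h0 h hG hl.eff₂
  have hv₁ : (h0 D₁ - 1).toNat = (h0 D₁ - chi D₁).toNat + (chi D₁ - 1).toNat := by omega
  have hv₂ : (h0 D₂ - 1).toNat = (h0 D₂ - chi D₂).toNat + (chi D₂ - 1).toNat := by omega
  have ha : (chi D₁ - 1).toNat + (chi D₂ - 1).toNat ≤ 1 := by omega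
  have h₁ : ((h0 D₁ - 1).toNat + 1 : ℤ) =
      (h0 D₁ - chi D₁).toNat + cx (S.lK h (lam - D₁)) (S.lK h lam) := by
    rw [cx_eq, sub_sub_cancel]; omega
  have h₂ : ((h0 D₂ - 1).toNat + 1 : ℤ) =
      (h0 D₂ - chi D₂).toNat + cx (S.lK h (0 - D₂)) (S.lK h 0) := by
    rw [cx_eq, sub_sub_cancel]; omega
  have hs := sign_eq (rk _ (bM T₁ T₂)) (chi (lam - D₁ + D₂) + chi (D₂ + lam))
    ((chi D₁ - 1).toNat + (chi D₂ - 1).toNat + n₂) (by
      have := vd_num h hG hl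
      rw [rk_bM_eq h (hD.drk (Sl.rk_lK S h _)), add_comm D₂ lam, Int.even_iff]
      omega)
  have hM : ∀ p u v q, (Eval.Mi n₁ n₂ (chi D₁ - 1).toNat (chi D₂ - 1).toNat
      (cx (S.lK h (0 - D₂)) (S.lK h (lam - D₁)) + cx (S.lK h (lam - D₁)) (S.lK h (0 - D₂)))
      (cx (S.lK h (lam - D₁)) (S.lK h 0)) (cx (S.lK h (0 - D₂)) (S.lK h lam)) p u v q) =
      Eval.Mi n₁ n₂ (chi D₁ - 1) (chi D₂ - 1) (chi (lam - D₁ + D₂) + chi (-(lam - D₁ + D₂)))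
        (chi (D₁ - lam)) (chi (D₂ + lam)) p u v q := fun p u v q => by
    rw [cx_eq, cx_eq, cx_eq, cx_eq, Int.toNat_of_nonneg (by omega), Int.toNat_of_nonneg (by omega),
      show lam - D₁ - (0 - D₂) = lam - D₁ + D₂ by abel, show 0 - (lam - D₁) = D₁ - lam by abel,
      show 0 - D₂ - (lam - D₁) = -(lam - D₁ + D₂) by abel, show lam - (0 - D₂) = D₂ + lam by abel]
  have L := lK_cls h
  simp only [Eval.Mf, Eval.sgn, chiN_eq, numSurf_B, one_mul, Int.cast_mul, ← hs, ← hM]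
  have hx := fun b i j => (congrArg₂ pr (xg_eq h lam D₁ D₂ b i) (xg_eq h lam D₁ D₂ b j)).trans
    (pr_dv h _ _)
  have hy := fun b i => (congrArg₂ pr (xg_eq h lam D₁ D₂ b i) ((congrArg₂ (· - ·)
    (xg_eq h lam D₁ D₂ b 2) (xg_eq h lam D₁ D₂ b 3)).trans (map_sub _ _ _).symm)).trans
    (pr_dv h _ _)
  obtain ⟨rfl, rfl⟩ | ⟨rfl, rfl⟩ | ⟨rfl, rfl⟩ :
    (n₁ = 0 ∧ n₂ = 0) ∨ (n₁ = 1 ∧ n₂ = 0) ∨ (n₁ = 0 ∧ n₂ = 1) := by omega
  · refine ⟨0, shape_of h hp ?_⟩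
    rw [mul_assoc]
    exact res_zero T₁ T₂ hD0 hGen hS hD (L _) (L _) hv₁ hv₂ ha h₁ h₂ _ _ _ _
  · obtain ⟨N, hN⟩ := res_L T₁ T₂ hS hD (L _) (L _) (L _) (L _) (L _) hv₁ hv₂ h₁ h₂ hD1 hGen ha
      (hx _ _ _) (hy _ _) (hy _ _) (by rw [hx, hx, hx, ← Int.cast_neg, ← Int.cast_add,
        ← Int.cast_sub])
    refine ⟨N, shape_of h hp ?_⟩
    rw [neg_neg, one_mul, ← mul_assoc] at hN
    exact hN
  · obtain ⟨N, hN⟩ := res_R T₂ T₁ hS hD (L _) (L _) (L _) (L _) (L _) hv₂ hv₁ h₂ h₁ hD1 hGen ha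
      (hx _ _ _) (hy _ _) (hy _ _) (by rw [hx, hx, hx, ← Int.cast_neg, ← Int.cast_add,
        ← Int.cast_sub])
    refine ⟨N, shape_of h hp ?_⟩
    rw [← pow_succ', ← mul_assoc] at hN
    exact hN

end Vale.Agent.P297Z.Ev
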