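import Vale.Agent.P297Z.Ev.Avg
import Vale.Agent.P297Z.Sh.Step
import Vale.Agent.P297Z.Ch.Adj
import Vale.Agent.P297Z.Top.Glue2

/-!
# P297: the hyperplane class, integration over the linear systems
-/

set_option linter.all false

noncomputable section

namespace Vale.Agent.P297Z.Ev

open PowerSeries Gd

variable {B W S X Y : Spc}

theorem isCls_nsmul {l : K0 X} (h : IsCls l 1) : ∀ n : ℕ, IsCls (n • l) n
  | 0 => by rw [zero_smul]; exact bCls_zero
  | n + 1 => by rw [succ_nsmul]; exact (isCls_nsmul h n).add h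

theorem gc_top_add {a b : K0 X} {r s : ℕ} (ha : IsCls a r) (hb : IsCls b s) :
    gc ℂ (r + s) (a + b) = gc ℂ r a * gc ℂ s b := by
  rw [gc, Gl.cc_top_add ha hb, amk_mul (Nd.cc_mem_FF _ _) (Nd.cc_mem_FF _ _)]
  rfl

theorem gc_nsmul {l : K0 X} (h : IsCls l 1) : ∀ n : ℕ, gc ℂ n (n • l) = gc ℂ 1 l ^ n
  | 0 => by rw [gc_zero, pow_zero]
  | n + 1 => by rw [succ_nsmul, gc_top_add (isCls_nsmul h n) h, gc_nsmul h n, pow_succ]

theorem cA_neg_line {l : K0 X} (h : IsCls l 1) : cA ℂ (-l) = bin (gc ℂ 1 l) (-1) :=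
  eq_of_mul_eq_one (cA_neg_mul l) (by rw [h.cA_eq, ← bin_one, ← bin_add, neg_add_cancel, bin_zero])

theorem cA_zsmul {l : K0 X} (h : IsCls l 1) (n : ℤ) : cA ℂ (n • l) = bin (gc ℂ 1 l) n := by
  induction n using Int.induction_on with
  | zero => rw [zero_smul, cA_zero, bin_zero]
  | succ n ih => rw [add_smul, one_smul, cA_add, ih, bin_add, bin_one, h.cA_eq]
  | pred n ih =>
    rw [sub_eq_add_neg, add_smul, neg_smul 1, one_smul, cA_add, ih, bin_add, cA_neg_line h]

/-- the hyperplane class -/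
def hP (v : ℕ) : GA ℂ (PP v) := gc ℂ 1 (OP v (-1))

theorem OP_pow (v : ℕ) : (1 - OP v (-1)) ^ (v + 1) = 0 := by
  have := prod_one_sub_line (X := PP v) (Finset.univ : Finset (Fin (v + 1))) Finset.univ_nonempty
    (fun i => (MvPolynomial.X i : MvPolynomial (Fin (v + 1)) pt0.R)) (fun _ _ => 1)
    (fun i _ => by
      refine (congrArg (fun δ => _ ∈ (PP v).wt δ) (funext fun j => ?_)).mpr
        (Spc.X_mem pt0 (Fin (v + 1)) (fun _ => 0) i)
      rcases j with _ | j
      · rfl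
      · exact j.elim)
    (fun z => by
      obtain ⟨i, hi⟩ := ((Spc.adj_pt pt0 (Fin (v + 1)) _ z.1).1 z.2).2
      exact ⟨i, Finset.mem_univ _, hi⟩)
  rwa [Finset.prod_const, Finset.card_univ, Fintype.card_fin] at this

theorem hP_nil (v : ℕ) : hP v ^ (v + 1) = 0 := by
  rw [hP, (Sh.OP_cls v _).gc_one, ← amk_pow (Sh.OP_cls v _).sub_mem, OP_pow, amk_zero]

theorem chi_top (v : ℕ) : chiG _ (kact _ (cc v (v • OP v (-1))) (oG (PP v))) = 1 := by
  have hA := isAdj_adjPr pt0 (Fin (v + 1)) fun _ => 0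
  have h := hA.segre 0 (bCls_nat v) (Fintype.card_fin _).symm 0 (oG _)
  have e : -((Mor.adjPr pt0 (Fin (v + 1)) fun _ => 0).ρ 0 +
      (Prj.adjPr pt0 (Fin (v + 1)) fun _ => 0).σ 1) = fun _ => -1 := funext fun j => by
    rcases j with _ | j
    · rfl
    · exact j.elim
  rw [pow_zero, one_mul, cc_zero, kact_one, pullG_oG hA.flat, e, map_natCast, mul_comm,
    ← nsmul_eq_mul] at h
  rw [← chiG_fstar (isVar_PP v).proj isVar_pt0.proj (Mor.adjPr pt0 (Fin (v + 1)) fun _ => 0),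
    fstar_push (isVar_PP v).proj isVar_pt0.proj (Prj.adjPr pt0 (Fin (v + 1)) fun _ => 0)]
  exact (congrArg (chiG _) h).trans chiG_pt_oG

theorem deg_hP (v i : ℕ) : GH.deg (hP v ^ i • fund ℂ (PP v) v) = if i = v then 1 else 0 := by
  rw [hP, ← gc_nsmul (Sh.OP_cls v _), gc, GH.deg_amk_fund (Nd.var_PP v) (Nd.cc_mem_FF _ _)]
  split_ifs with h
  · rw [h, chi_top, Int.cast_one]
  · rfl

section tower

variable {L M : K0 S} {v n o : ℕ} (T : Tower S L M v n o)

/-- the tautological line bundle on a tower -/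
def OT (m : ℕ) : K0 (T.X m) := pullK (T.p m) (OP v (-1))

theorem OT_cls (m : ℕ) : IsCls (OT T m) 1 := (Sh.OP_cls v _).pull _

/-- the hyperplane class of the linear system -/
def hT : GA ℂ (T.X 0) := gc ℂ 1 (OT T 0)

theorem hT_eq : hT T = GA.pull (T.p 0) (hP v) := (pull_gc _ _ _).symm

theorem hT_nil : hT T ^ (v + 1) = 0 := by rw [hT_eq, ← map_pow, hP_nil, map_zero]

theorem var0 : (T.X 0).IsVar v := T.var 0 (Nat.zero_le _)

theorem deg_hT (i : ℕ) : GH.deg (hT T ^ i • fund ℂ (T.X 0) v) = if i = v then 1 else 0 := by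
  have hP' := (Nd.var_PP v).proj
  rw [hT_eq, ← map_pow, ← GH.deg_push (var0 T).proj hP' (T.p 0), GH.push_proj (var0 T).proj hP',
    GH.push_fund (var0 T) hP', hmk_congr T.p0]
  exact deg_hP v i

end tower

theorem deg_prod {n m : ℕ} (hX : X.IsVar n) (hY : Y.IsVar m) (x : GA ℂ X) (y : GA ℂ Y) :
    GH.deg ((GA.pull (Mor.fst X Y) x * GA.pull (Mor.snd X Y) y) • fund ℂ (X.prod Y) (n + m)) =
      GH.deg (x • fund ℂ X n) * GH.deg (y • fund ℂ Y m) := by
  have hp := (Nd.var_prod hX hY).proj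
  rw [← GH.deg_push hp hY.proj (Mor.snd X Y), mul_comm, mul_act, GH.push_proj hp hY.proj,
    GH.push_snd_fund hX hY, smul_comm, map_smul, smul_eq_mul]

theorem ite_mul_ite (p q : Prop) [Decidable p] [Decidable q] {V : Type*} [AddCommGroup V]
    [Module ℂ V] (f : V) :
    ((if p then 1 else 0 : ℂ) * if q then 1 else 0) • f = if p ∧ q then f else 0 := by
  by_cases hp : p <;> by_cases hq : q <;> simp [hp, hq]

/-- the exchange of the two linear systems -/
def Alg.swap {A R V : Type*} [CommRing A] [Algebra ℂ A] [CommRing R] [Algebra ℂ R]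
    [AddCommGroup V] [Module ℂ V] [Module R V] (a : Alg A R V) : Alg A R V where
  σ := a.σ
  J := a.J
  f := a.f
  h₁ := a.h₂
  h₂ := a.h₁
  v₁ := a.v₂
  v₂ := a.v₁
  proj := a.proj
  nil₁ := a.nil₂
  nil₂ := a.nil₁
  top i j := by rw [mul_comm, a.top]; simp only [and_comm]

section two

variable {L M L' M' : K0 S} {v n o v' n' o' : ℕ} (T : Tower S L M v n o)
  (T' : Tower S L' M' v' n' o')

/-- integration over the product of the linear systems -/
def alg0 : Alg (GA ℂ ((T.X 0).prod (T'.X 0))) (ULift.{1} ℂ) (ULift.{1} ℂ) where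
  σ := (Algebra.ofId ℂ _).comp (ULift.algEquiv (R := ℂ)).toAlgHom
  J := ULift.moduleEquiv.symm.toLinearMap ∘ₗ GH.deg ∘ₗ Sh.cap ℂ (fund ℂ _ (v + v'))
  f := ULift.up 1
  h₁ := GA.pull (Mor.fst _ _) (hT T)
  h₂ := GA.pull (Mor.snd _ _) (hT T')
  v₁ := v
  v₂ := v'
  proj c x := by
    change ULift.up (GH.deg ((algebraMap ℂ _ c.down * x) • fund ℂ ((T.X 0).prod (T'.X 0)) _)) =
      ULift.up (c.down * GH.deg (x • fund ℂ ((T.X 0).prod (T'.X 0)) _))
    rw [← Algebra.smul_def, smul_assoc, map_smul, smul_eq_mul]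
  nil₁ := by rw [← map_pow, hT_nil, map_zero]
  nil₂ := by rw [← map_pow, hT_nil, map_zero]
  top i j := by
    rw [← ite_mul_ite, ← deg_hT T, ← deg_hT T', ← deg_prod (var0 T) (var0 T'), map_pow, map_pow]
    exact congrArg ULift.up (mul_one _).symm

/-- the space of a point and two divisors -/
abbrev B1 : Spc := ((T.X 0).prod S).prod (T'.X 0)

/-- the point -/
def s1 : Mor (B1 T T') S := (Mor.snd _ _).comp (Mor.fst _ _)

theorem var_B1 (hS : S.IsVar 2) : (B1 T T').IsVar (v + 2 + v') :=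
  Nd.var_prod (Nd.var_prod (var0 T) hS) (var0 T')

/-- integration along the linear systems -/
def alg1 (hS : S.IsVar 2) : Alg (GA ℂ (B1 T T')) (GA ℂ S) (GH ℂ S) where
  σ := GA.pull (s1 T T')
  J := GH.push (s1 T T') ∘ₗ Sh.cap ℂ (fund ℂ _ (v + 2 + v'))
  f := fund ℂ S 2
  h₁ := GA.pull (Mor.fst _ _) (GA.pull (Mor.fst _ _) (hT T))
  h₂ := GA.pull (Mor.snd _ _) (hT T')
  v₁ := v
  v₂ := v'
  proj c x := by
    simp only [LinearMap.comp_apply, Sh.cap_apply]
    rw [mul_act, GH.push_proj (var_B1 T T' hS).proj hS.proj]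
  nil₁ := by rw [← map_pow, ← map_pow, hT_nil, map_zero, map_zero]
  nil₂ := by rw [← map_pow, hT_nil, map_zero]
  top i j := by
    have h1 := Nd.var_prod (var0 T) hS
    rw [LinearMap.comp_apply, Sh.cap_apply, ← ite_mul_ite, ← deg_hT T, ← deg_hT T', s1,
      GH.push_comp (var_B1 T T' hS).proj h1.proj hS.proj, ← map_pow, ← map_pow, ← map_pow, mul_act,
      GH.push_proj (var_B1 T T' hS).proj h1.proj, GH.push_fst_fund (var0 T') h1, smul_comm,
      map_smul, GH.push_snd_fund (var0 T) hS, smul_smul, mul_comm]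

end two

end Vale.Agent.P297Z.Ev
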