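import Vale.Agent.P297Z.Ev.KB

/-!
# P297: from the model of the fixed locus to the values of the functionals
-/

set_option linter.all false

noncomputable section

namespace Vale.Agent.P297Z.Ev

open PowerSeries Gd

variable {B B' W S : Spc} {om : K0 S}

/-! ### series -/

section ser

variable {A A' : Type*} [CommRing A] [CommRing A']

theorem coeff_bin_neg (u : A) (i : ℕ) : coeff i (bin u (-1)) = (-u) ^ i := by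
  have h : bin u (-1) = rescale (-u) (PowerSeries.mk 1) := by
    refine eq_of_mul_eq_one (c := bin u 1) (by rw [← bin_add, neg_add_cancel, bin_zero]) ?_
    have := congrArg (rescale (-u)) (mk_one_mul_one_sub_eq_one A)
    rwa [map_mul, map_sub, map_one, rescale_X, map_neg, neg_mul, sub_neg_eq_add, ← bin_one] at this
  rw [h, coeff_rescale, coeff_mk, Pi.one_apply, mul_one]

theorem map_ext4 [Algebra ℂ A] [Algebra ℂ A'] (φ : A →+* A') (a b c d : A) :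
    map φ (ext4 a b c d) = ext4 (φ a) (φ b) (φ c) (φ d) := by
  simp only [ext4, RingHom.map_mul, RingHom.map_add, RingHom.map_one, map_C, map_X, map_bin]

theorem map_core0 [Algebra ℂ A] [Algebra ℂ A'] (φ : A →+* A') (h₁ h₂ : A) (o₁ o₂ : ℕ)
    (A₁ A₂ e : ℤ) : map φ (core0 h₁ h₂ o₁ o₂ A₁ A₂ e) = core0 (φ h₁) (φ h₂) o₁ o₂ A₁ A₂ e := by
  simp only [core0, RingHom.map_mul, RingHom.map_pow, map_C, map_X, map_bin, RingHom.map_neg,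
    RingHom.map_sub]

theorem map_zz (f : Mor B B') (t : ℂ) (d n : GA ℂ B') :
    map (GA.pullR ℂ f) (zz t d n) = zz t (GA.pull f d) (GA.pull f n) := by
  simp only [zz, RingHom.map_mul, RingHom.map_add, RingHom.map_one, RingHom.map_pow, map_C, map_X,
    GA.pullR_apply, AlgHom.commutes]

/-- substitution under the integral -/
theorem subst [Algebra ℂ A] [Algebra ℂ A'] {V : Type*} [AddCommGroup V] (φ : A →+* A') (η : A')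
    (ε : A) (I' : A' →+ V) (I : A →+ V) (h : ∀ c i, I' (φ c * η ^ i) = I (c * ε ^ i))
    (F : A⟦X⟧) (u a b c d : A) (m : ℕ) :
    I' (coeff m (map φ F * ext4 (η + φ a) (φ u * (η + φ b)) (φ u * η + φ c) (φ u * η + φ d))) =
      I (coeff m (F * ext4 (ε + a) (u * (ε + b)) (u * ε + c) (u * ε + d))) := by
  have h1 : ∀ P : Polynomial A,
      I' (Polynomial.eval₂RingHom φ η P) = I (Polynomial.evalRingHom ε P) := fun P => by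
    induction P using Polynomial.induction_on' with
    | add p q hp hq => rw [map_add, map_add, map_add, map_add, hp, hq]
    | monomial i c =>
      rw [Polynomial.coe_eval₂RingHom, Polynomial.coe_evalRingHom, Polynomial.eval₂_monomial,
        Polynomial.eval_monomial, h]
  have h2 := h1 (coeff m (map Polynomial.C F * ext4 (Polynomial.X + Polynomial.C a)
    (Polynomial.C u * (Polynomial.X + Polynomial.C b))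
    (Polynomial.C u * Polynomial.X + Polynomial.C c)
    (Polynomial.C u * Polynomial.X + Polynomial.C d)))
  have e1 : map (Polynomial.eval₂RingHom φ η) (map Polynomial.C F) = map φ F := by
    ext i
    simp
  have e2 : map (Polynomial.evalRingHom ε) (map Polynomial.C F) = F := by
    ext i
    simp
  rw [← coeff_map, ← coeff_map, RingHom.map_mul, RingHom.map_mul, map_ext4, map_ext4, e1, e2] at h2
  simpa using h2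

variable [Algebra ℂ A] [Algebra ℂ A'] {R V : Type*} [CommRing R] [Algebra ℂ R] [AddCommGroup V]
  (φ : A →+* A') (σ : R →ₐ[ℂ] A) (η : A') (h₁ h₂ : A) (ω l₁ m₁ l₂ m₂ : R) (I' : A' →+ V)
  (I : A →+ V) (o₁ o₂ : ℕ) (A₁ A₂ e : ℤ) (F : A⟦X⟧) (m : ℕ)

theorem subst' {ε : A} (h : ∀ c i, I' (φ c * η ^ i) = I (c * ε ^ i)) (u a b c d : A) {G : A⟦X⟧}
    {G' : A'⟦X⟧} {a₁ b₁ c₁ d₁ : A'} {a₂ b₂ c₂ d₂ : A} (hG : map φ G = G') (h1 : a₁ = η + φ a)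
    (h2 : b₁ = φ u * (η + φ b)) (h3 : c₁ = φ u * η + φ c) (h4 : d₁ = φ u * η + φ d)
    (h5 : a₂ = ε + a) (h6 : b₂ = u * (ε + b)) (h7 : c₂ = u * ε + c) (h8 : d₂ = u * ε + d) :
    I' (coeff m (G' * ext4 a₁ b₁ c₁ d₁ * map φ F)) = I (coeff m (G * ext4 a₂ b₂ c₂ d₂ * F)) := by
  subst hG h1 h2 h3 h4 h5 h6 h7 h8
  rw [mul_right_comm, mul_right_comm G, ← RingHom.map_mul]
  exact subst φ η ε I' I h _ u a b c d m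

theorem subst_L (h : ∀ c i, I' (φ c * η ^ i) = I (c * (h₁ + σ m₁) ^ i)) :
    I' (coeff m (core0 (φ h₁) (φ h₂) o₁ o₂ A₁ A₂ e * ext4 (η - φ (σ ω) - φ (σ l₁))
      (-(η - φ (σ ω) - φ (σ l₂))) (-(η - φ h₂ - φ (σ ω) - φ (σ m₂))) (φ h₂ + φ (σ m₂) - η) *
      map φ F)) =
    I (coeff m (core0 h₁ h₂ o₁ o₂ A₁ A₂ e * ext4 (h₁ + σ (m₁ - ω - l₁))
      ((-1 : ℂ) • (h₁ + σ (m₁ - ω - l₂))) (h₂ - h₁ - σ (m₁ - ω - m₂)) (h₂ - h₁ + σ (m₂ - m₁)) *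
      F)) := by
  refine subst' φ η I' I F m h (-1) (-σ ω - σ l₁) (-σ ω - σ l₂) (h₂ + σ ω + σ m₂) (h₂ + σ m₂)
    (map_core0 φ _ _ _ _ _ _ _) ?_ ?_ ?_ ?_ ?_ ?_ ?_ ?_ <;>
    simp only [map_add, map_sub, map_neg, map_one, neg_smul, one_smul] <;> ring

theorem subst_R (h : ∀ c i, I' (φ c * η ^ i) = I (c * (h₂ + σ m₂) ^ i)) :
    I' (coeff m (core0 (φ h₁) (φ h₂) o₁ o₂ A₁ A₂ e * ext4 (η - φ (σ ω) - φ (σ l₂))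
      (η - φ (σ ω) - φ (σ l₁)) (-(φ h₁ + φ (σ m₁) - η)) (η - φ h₁ - φ (σ ω) - φ (σ m₁)) *
      map φ F)) =
    I (coeff m (core0 h₁ h₂ o₁ o₂ A₁ A₂ e * ext4 (h₂ + σ (m₂ - ω - l₂))
      ((1 : ℂ) • (h₂ + σ (m₂ - ω - l₁))) (h₂ - h₁ - σ (m₁ - m₂)) (h₂ - h₁ + σ (m₂ - m₁ - ω)) *
      F)) := by
  refine subst' φ η I' I F m h 1 (-σ ω - σ l₂) (-σ ω - σ l₁) (-h₁ - σ m₁) (-h₁ - σ ω - σ m₁)
    (map_core0 φ _ _ _ _ _ _ _) ?_ ?_ ?_ ?_ ?_ ?_ ?_ ?_ <;>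
    simp only [map_add, map_sub, map_neg, map_one, neg_smul, one_smul] <;> ring

end ser

section res

variable {L₁ M₁ L₂ M₂ : K0 S} {v₁ v₂ n₁ n₂ o₁ o₂ : ℕ}

/-- the orthogonality conditions -/
structure Ok (om L₁ M₁ L₂ M₂ : K0 S) (al w : GA ℂ S) (t : ℂ) : Prop where
  m₁ : pr w (gc ℂ 1 M₁) = t
  m₂ : pr w (gc ℂ 1 M₂) = -t
  om : pr w (gc ℂ 1 om) = 0
  l₁ : pr w (gc ℂ 1 L₁) = 0
  l₂ : pr w (gc ℂ 1 L₂) = 0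
  al : pr w al = 0

/-- the values of the functionals -/
def Res (om : K0 S) (T₁ : Tower S L₁ M₁ v₁ n₁ o₁) (T₂ : Tower S L₂ M₂ v₂ n₂ o₂) (N M : ℂ) :
    Prop := ∀ (ι : Type) [Fintype ι] (a : ι → ℂ) (w : ι → K0 S) (t : ℂ), (∀ i, rk S (w i) = 0) →
  Ok om L₁ M₁ L₂ M₂ (∑ i, a i • amk ℂ 1 (w i)) (∑ i, a i • amk ℂ 1 (w i)) t →
  (∀ (τ : G S →+ ℂ) (z z' : S.Pt), GH.deg (amk ℂ 2 (dK S z - dK S z') • fund ℂ S 2) = 0 →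
    GamF T₁ T₂ 12 a w (Phi S τ z z') =
      t ^ 12 * (N * GH.fn0 τ (amk ℂ 2 (dK S z - dK S z') • fund ℂ S 2))) ∧
  ∀ (w' : K0 S) (t' : ℂ), rk S w' = 0 →
    Ok om L₁ M₁ L₂ M₂ (∑ i, a i • amk ℂ 1 (w i)) (amk ℂ 1 w') t' →
    GamF T₁ T₂ 12 a w (Psi S w') = t ^ 12 * (N * pr (amk ℂ 1 w') (amk ℂ 1 w') + M * t' ^ 2)

/-- the four classes at the point -/
def xg (b : Bool) (om L₁ M₁ L₂ M₂ : K0 S) : Fin 4 → GA ℂ S :=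
  cond b ![gc ℂ 1 M₁ - gc ℂ 1 om - gc ℂ 1 L₁, gc ℂ 1 M₁ - gc ℂ 1 om - gc ℂ 1 L₂,
      gc ℂ 1 M₁ - gc ℂ 1 om - gc ℂ 1 M₂, gc ℂ 1 M₂ - gc ℂ 1 M₁]
    ![gc ℂ 1 M₂ - gc ℂ 1 om - gc ℂ 1 L₂, gc ℂ 1 M₂ - gc ℂ 1 om - gc ℂ 1 L₁,
      gc ℂ 1 M₁ - gc ℂ 1 M₂, gc ℂ 1 M₂ - gc ℂ 1 M₁ - gc ℂ 1 om]

theorem pr_sub (w x y : GA ℂ S) : pr w (x - y) = pr w x - pr w y := by
  rw [pr, mul_sub, sub_smul, map_sub]; rfl

theorem Ok.x {al w : GA ℂ S} {t : ℂ} (h : Ok om L₁ M₁ L₂ M₂ al w t) (b : Bool) :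
    pr w (xg b om L₁ M₁ L₂ M₂ 0) = -(cond b (-1) 1 : ℂ) * t ∧
    pr w (xg b om L₁ M₁ L₂ M₂ 1) = -(cond b (-1) 1 : ℂ) * t ∧
    pr w (xg b om L₁ M₁ L₂ M₂ 2) = 2 * t ∧ pr w (xg b om L₁ M₁ L₂ M₂ 3) = -2 * t ∧
    pr w al = 0 := by
  cases b <;> simp [xg, pr_sub, h.m₁, h.m₂, h.om, h.l₁, h.l₂, h.al] <;> constructor <;> ring

variable {T₁ : Tower S L₁ M₁ v₁ n₁ o₁} {T₂ : Tower S L₂ M₂ v₂ n₂ o₂} (c : Chart T₁ T₂)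

/-- the model with one point -/
def Chart.base (hS : S.IsVar 2) (hD : Dia S om)
    (rf : GH.push c.r (fund ℂ c.B (v₁ + 2 * n₁ + (v₂ + 2 * n₂))) =
      fund ℂ _ (v₁ + 2 * n₁ + (v₂ + 2 * n₂)))
    (k₁ : gc ℂ 1 (uE c.O₁ c.l₁ M₁ c.s) =
      GA.pull (Mor.fst _ S) (gc ℂ 1 c.O₁) + GA.pull (Mor.snd _ S) (gc ℂ 1 M₁))
    (k₂ : gc ℂ 1 (uE c.O₂ c.l₂ M₂ c.s) =
      GA.pull (Mor.fst _ S) (gc ℂ 1 c.O₂) + GA.pull (Mor.snd _ S) (gc ℂ 1 M₂))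
    (k₃ : gc ℂ 2 (uE c.O₁ c.l₁ M₁ c.s) + gc ℂ 2 (uE c.O₂ c.l₂ M₂ c.s) = -gc ℂ 2 (ds c.s)) :
    Base T₁ T₂ where
  B := c.B
  var := c.var
  r := c.r
  rf := rf
  h₁ := gc ℂ 1 c.O₁
  h₂ := gc ℂ 1 c.O₂
  Del := -gc ℂ 2 (ds c.s)
  nu := (GA.pull c.s).toLinearMap
  mu := GH.push c.s ∘ₗ Sh.cap ℂ (fund ℂ _ (v₁ + 2 * n₁ + (v₂ + 2 * n₂)))
  kap := by rw [c.kap, Sh.kA, k₁, k₂, k₃]
  avg x := (avgGr S om hS hD _ c.s _).congr rfl (by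
    rw [← GA.pull_comp, gr, Mor.snd_lift]; rfl)
  psh y := by
    have hp := (Nd.var_prod c.var hS).proj
    rw [mul_act, hD.c2 _ _ c.var, ← GH.push_proj c.var.proj hp,
      ← GH.push_comp c.var.proj hp hS.proj, ← GA.pull_comp, gr, Mor.fst_lift, Mor.snd_lift]
    rfl

theorem Chart.base_mu (hS : S.IsVar 2) (hD : Dia S om) {rf k₁ k₂ k₃} (y : GA ℂ c.B) (x : GA ℂ S) :
    (c.base hS hD rf k₁ k₂ k₃).mu (y * GA.pull c.s x) = x • (c.base hS hD rf k₁ k₂ k₃).mu y := by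
  change GH.push c.s ((y * GA.pull c.s x) • fund ℂ c.B (v₁ + 2 * n₁ + (v₂ + 2 * n₂))) =
    x • GH.push c.s (y • fund ℂ c.B (v₁ + 2 * n₁ + (v₂ + 2 * n₂)))
  rw [mul_comm, mul_act, GH.push_proj c.var.proj hS.proj]

theorem res_one (hD1 : D1) (hG : Gen) (hS : S.IsVar 2) (bs : Base T₁ T₂)
    (a : Alg (GA ℂ B') (GA ℂ S) (GH ℂ S)) (φ : Mor bs.B B') (b : Bool) {a₁ a₂ : ℕ}
    {A₁ A₂ e p u v q : ℤ} (hf : a.f = fund ℂ S 2) (hv₁ : a.v₁ = o₁ + a₁) (hv₂ : a.v₂ = o₂ + a₂)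
    (ha : a₁ + a₂ ≤ 1) (hn : v₁ + 2 * n₁ + (v₂ + 2 * n₂) = a.v₁ + a.v₂ + 2)
    (h₁ : bs.h₁ = GA.pull φ a.h₁) (h₂ : bs.h₂ = GA.pull φ a.h₂)
    (hnu : ∀ x, bs.nu x = GA.pull φ (a.σ x)) (hmu : ∀ y x, bs.mu (y * bs.nu x) = x • bs.mu y)
    (hdeg : ∀ y, GH.deg (y • fund ℂ bs.B (v₁ + 2 * n₁ + (v₂ + 2 * n₂))) = GH.deg (bs.mu y))
    (key : ∀ F m, bs.mu (coeff m (map (GA.pullR ℂ bs.r) (ld ℂ (core T₁ T₂)) *
      map (GA.pullR ℂ φ) F)) = a.J (coeff m (core0 a.h₁ a.h₂ o₁ o₂ A₁ A₂ e *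
        ext4 (cond b a.h₁ a.h₂ + a.σ (xg b om L₁ M₁ L₂ M₂ 0))
          ((cond b (-1) 1 : ℂ) • (cond b a.h₁ a.h₂ + a.σ (xg b om L₁ M₁ L₂ M₂ 1)))
          (a.h₂ - a.h₁ - a.σ (xg b om L₁ M₁ L₂ M₂ 2))
          (a.h₂ - a.h₁ + a.σ (xg b om L₁ M₁ L₂ M₂ 3)) * F)))
    (hp : pr (xg b om L₁ M₁ L₂ M₂ 0) (xg b om L₁ M₁ L₂ M₂ 1) = p)
    (hu : pr (xg b om L₁ M₁ L₂ M₂ 0) (xg b om L₁ M₁ L₂ M₂ 2 - xg b om L₁ M₁ L₂ M₂ 3) = u)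
    (hv : pr (xg b om L₁ M₁ L₂ M₂ 1) (xg b om L₁ M₁ L₂ M₂ 2 - xg b om L₁ M₁ L₂ M₂ 3) = v)
    (hq : -pr (xg b om L₁ M₁ L₂ M₂ 2) (xg b om L₁ M₁ L₂ M₂ 2) +
      pr (xg b om L₁ M₁ L₂ M₂ 2) (xg b om L₁ M₁ L₂ M₂ 3) -
      pr (xg b om L₁ M₁ L₂ M₂ 3) (xg b om L₁ M₁ L₂ M₂ 3) = q) :
    ∃ N, Res om T₁ T₂ N ((-1) ^ (rk _ (bM T₁ T₂)).natAbs * (-(cond b (-1) 1 : ℂ) *
      (-1) ^ (a₁ + a₂) * (Eval.Mi (cond b 1 0) (cond b 0 1) a₁ a₂ e A₁ A₂ p u v q : ℤ))) := by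
  obtain ⟨N, hN⟩ := hD1 _ _ _ a o₁ o₂ a₁ a₂ A₁ A₂ e p u v q b (xg b om L₁ M₁ L₂ M₂) GH.deg hv₁ hv₂
    ha (hf ▸ hp) (hf ▸ hu) (hf ▸ hv) (by
      rw [hf, sub_smul, add_smul, neg_smul, map_sub, map_add, map_neg]; exact hq)
  refine ⟨(-1) ^ (rk _ (bM T₁ T₂)).natAbs * N, fun ι _ α w t hw ok => ?_⟩
  obtain ⟨g1, g2⟩ := hG S hS T₁ T₂ bs 12 ι α w t hw ok.m₁ ok.m₂
  obtain ⟨d1, d2⟩ := hN (∑ i, α i • amk ℂ 1 (w i)) t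
  have hz : ∀ (s : ℂ) (x : GA ℂ S), zz s (bs.h₂ - bs.h₁) (bs.nu x) =
      map (GA.pullR ℂ φ) (zz s (a.h₂ - a.h₁) (a.σ x)) := fun s x => by
    rw [map_zz, map_sub, h₁, h₂, hnu]
  have hc : ∀ F : (GA ℂ B')⟦X⟧, bs.cz 12 t (∑ i, α i • amk ℂ 1 (w i)) * map (GA.pullR ℂ φ) F =
      map (GA.pullR ℂ bs.r) (ld ℂ (core T₁ T₂)) * map (GA.pullR ℂ φ)
        ((zz t (a.h₂ - a.h₁) (a.σ (∑ i, α i • amk ℂ 1 (w i))) * X) ^ 12 * F) := fun F => by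
    rw [Base.cz, hz, RingHom.map_mul, RingHom.map_pow, RingHom.map_mul, map_X, mul_assoc]
  refine ⟨fun τ z z' h0 => ?_, fun w' t' hw' ok' => ?_⟩
  · have e1 := hc (X ^ 4)
    rw [RingHom.map_pow, map_X] at e1
    rw [g2 τ z z' h0, hdeg, hmu, e1, key, ← mul_assoc, hn, d1, hf, smul_comm, LinearMap.map_smul,
      LinearMap.map_smul, h0, smul_eq_mul, smul_eq_mul]
    ring
  · rw [g1 w' t' hw' ok'.m₁ ok'.m₂, hdeg, hz t', ← RingHom.map_pow, hc, key, ← mul_assoc, hn,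
      d2 (hf ▸ ok.x b) _ t' (hf ▸ ok'.x b), hf, pr]
    ring

end res

end Vale.Agent.P297Z.Ev
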